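import Vale.Agent.P073.Shear

/-!
# P073: approximation of vertical shears
-/

namespace Vale.Agent.P073

open MeasureTheory Filter Topology Function
open scoped ENNReal ContDiff

theorem lintegral_error {Ω : Set Sp3} {p : ℝ} (hp : 1 ≤ p) {a : Sp3 → ℝ} {b : Fin 3 → Sp3 → ℝ}
    (ha : AEStronglyMeasurable a) (hb : ∀ i, AEStronglyMeasurable (b i)) {F F' : Sp3 → Sp3}
    {G G' : Sp3 → Fin 3 → Fin 3 → ℝ}
    (hF : ∀ x ∈ Ω, ‖F x - F' x‖ = |a x|) (hΩ : MeasurableSet Ω)
    (hG : ∀ x ∈ Ω, ∀ k i, G x k i - G' x k i = if k = 2 then b i x else 0) :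
    ∫⁻ x in Ω, ENNReal.ofReal
        (‖F x - F' x‖ ^ p + Real.sqrt (∑ k, ∑ i, (G x k i - G' x k i) ^ 2) ^ p)
      ≤ eLpNorm a (ENNReal.ofReal p) ^ p + (∑ i, eLpNorm (b i) (ENNReal.ofReal p)) ^ p := by
  have hp0 : 0 < p := by linarith
  set B : Sp3 → ℝ := fun x => ∑ i, |b i x| with hB
  have hpt : ∀ x ∈ Ω, ENNReal.ofReal
      (‖F x - F' x‖ ^ p + Real.sqrt (∑ k, ∑ i, (G x k i - G' x k i) ^ 2) ^ p)
      ≤ ENNReal.ofReal (|a x| ^ p) + ENNReal.ofReal (|B x| ^ p) := by
    intro x hx
    refine ENNReal.ofReal_add_le.trans (add_le_add (by rw [hF x hx]) (ENNReal.ofReal_le_ofReal ?_))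
    refine Real.rpow_le_rpow (Real.sqrt_nonneg _) ?_ hp0.le
    have e : ∑ k, ∑ i, (G x k i - G' x k i) ^ 2 = ∑ i, b i x ^ 2 := by
      simp only [hG x hx]
      rw [Fintype.sum_eq_single (2 : Fin 3) fun k hk => by simp [hk]]
      simp
    rw [e, abs_of_nonneg (Finset.sum_nonneg fun i _ => abs_nonneg _)]
    refine Real.sqrt_le_iff.2 ⟨Finset.sum_nonneg fun i _ => abs_nonneg _, ?_⟩
    simp only [hB, Fin.sum_univ_three]
    nlinarith [sq_abs (b 0 x), sq_abs (b 1 x), sq_abs (b 2 x), abs_nonneg (b 0 x),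
      abs_nonneg (b 1 x), abs_nonneg (b 2 x)]
  refine (setLIntegral_mono' hΩ hpt).trans ?_
  have hma : AEMeasurable (fun x => ENNReal.ofReal (|a x| ^ p)) (volume.restrict Ω) :=
    ((ha.aemeasurable.abs.pow_const p).ennreal_ofReal).restrict
  rw [lintegral_add_left' hma]
  refine add_le_add (lintegral_ofReal_rpow hp) ((lintegral_ofReal_rpow hp).trans ?_)
  refine ENNReal.rpow_le_rpow ?_ hp0.le
  have hsum : B = ∑ i, fun x => |b i x| := by
    funext x
    simp [hB, Finset.sum_apply]
  rw [hsum]
  refine (eLpNorm_sum_le (fun i _ => (hb i).norm) (ENNReal.one_le_ofReal.2 hp)).trans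
    (le_of_eq (Finset.sum_congr rfl fun i _ => ?_))
  exact eLpNorm_norm (b i)

/-- Scaled mollifications converge in `L^p`. -/
theorem tendsto_scaled {p : ℝ} (hp : 1 ≤ p) {h : Sp3 → ℝ} (hh : MemLp h (ENNReal.ofReal p))
    {r c : ℕ → ℝ} (hr : ∀ n, 0 < r n) (hr0 : Tendsto r atTop (𝓝 0)) (hc : Tendsto c atTop (𝓝 1)) :
    Tendsto (fun n => eLpNorm (fun x => c n * smth (r n) (hr n) h x - h x) (ENNReal.ofReal p))
      atTop (𝓝 0) := by
  have hP : (1 : ℝ≥0∞) ≤ ENNReal.ofReal p := ENNReal.one_le_ofReal.2 hp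
  set N := eLpNorm h (ENNReal.ofReal p) volume with hN
  have hNfin : N ≠ ⊤ := hh.eLpNorm_ne_top
  have hlim : Tendsto (fun n => ‖c n‖ₑ *
      eLpNorm (fun x => smth (r n) (hr n) h x - h x) (ENNReal.ofReal p) volume + ‖c n - 1‖ₑ * N)
      atTop (𝓝 0) := by
    have h1 : Tendsto (fun n => ‖c n‖ₑ) atTop (𝓝 ‖(1 : ℝ)‖ₑ) :=
      (continuous_enorm.tendsto _).comp hc
    have h2 : Tendsto (fun n => ‖c n - 1‖ₑ) atTop (𝓝 0) := by
      simpa using! (continuous_enorm.tendsto _).comp (hc.sub_const 1)
    have := (ENNReal.Tendsto.mul h1 (Or.inr (by simp)) (tendsto_smth hp hh hr hr0)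
      (Or.inr (by simp))).add (ENNReal.Tendsto.mul_const h2 (Or.inr hNfin))
    simpa using this
  refine tendsto_of_tendsto_of_tendsto_of_le_of_le tendsto_const_nhds hlim
    (fun n => zero_le) fun n => ?_
  have hm : AEStronglyMeasurable (fun x => smth (r n) (hr n) h x - h x) volume :=
    ((smth_contDiff (hr n) (hh.locallyIntegrable hP) (N := 0)).continuous.aestronglyMeasurable).sub
      hh.1
  have e : (fun x => c n * smth (r n) (hr n) h x - h x)
      = c n • (fun x => smth (r n) (hr n) h x - h x) + (c n - 1) • h := by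
    funext x
    simp
    ring
  rw [e]
  refine (eLpNorm_add_le (hm.const_smul _) (hh.1.const_smul _) hP).trans (le_of_eq ?_)
  rw [eLpNorm_const_smul, eLpNorm_const_smul]

/-- The function `q` with its global weak gradient and a cut-off radius. -/
theorem shear_data (k : Fin 3) {Ω : Set Sp3} (hΩ : IsOpen Ω) {p : ℝ} (hp : 1 ≤ p) {K : Set Sp3} (hK : IsCompact K)
    (hKΩ : K ⊆ Ω) {F : Sp3 → Sp3} {G : Sp3 → Fin 3 → Fin 3 → ℝ} (hG : IsWeakGrad Ω p F G)
    {q : Sp3 → ℝ} (hq : ∀ x ∈ Ω, q x = F x k - x k) (hq0 : ∀ x ∉ K, q x = 0)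
    (hqc : Continuous q) (hb : Bornology.IsBounded Ω) :
    ∃ g : Fin 3 → Sp3 → ℝ, (∀ i, MemLp (g i) (ENNReal.ofReal p)) ∧
      (∀ i (ψ : Sp3 → ℝ), ContDiff ℝ ∞ ψ → HasCompactSupport ψ →
        ∫ x, q x * fderiv ℝ ψ x (ev3 i) = - ∫ x, g i x * ψ x) := by
  obtain ⟨d, hd, hdΩ⟩ := hK.exists_cthickening_subset_open hΩ hKΩ
  have hd4 : 0 < d / 4 := by linarith
  set χ := smth (d / 4) hd4 ((Metric.cthickening (d / 2) K).indicator fun _ => (1 : ℝ)) with hχ
  have hli : LocallyIntegrable ((Metric.cthickening (d / 2) K).indicator fun _ => (1 : ℝ)) :=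
    (memLp_indicator_const 1 Metric.isClosed_cthickening.measurableSet (1 : ℝ)
      (Or.inr hK.cthickening.measure_lt_top.ne)).locallyIntegrable le_rfl
  have hχs : ContDiff ℝ ∞ χ := smth_contDiff hd4 hli
  have hsub : Metric.cthickening (d / 4) (Metric.cthickening (d / 2) K) ⊆ Ω :=
    ((Metric.cthickening_cthickening_subset hd4.le (by linarith) K).trans
      (Metric.cthickening_mono (by linarith) K)).trans hdΩ
  have hχ0 : ∀ x ∉ Metric.cthickening (d / 4) (Metric.cthickening (d / 2) K), χ x = 0 := fun x hx =>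
    smth_eq_zero hd4 (fun y hy => Set.indicator_of_notMem hy _) hx
  have hχc : HasCompactSupport χ := HasCompactSupport.intro hK.cthickening.cthickening hχ0
  have hχ1 : ∀ x ∈ Metric.cthickening (d / 4) K, χ x = 1 := by
    intro x hx
    rw [hχ, smth]
    refine (integral_congr_ae (Eventually.of_forall fun t => ?_)).trans (mol_integral hd4)
    by_cases ht : d / 4 < ‖t‖
    · simp [mol_eq_zero hd4 ht]
    · have hm : x - t ∈ Metric.cthickening (d / 2) K := by
        refine Metric.cthickening_mono (by linarith : d / 4 + d / 4 ≤ d / 2) K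
          (Metric.cthickening_cthickening_subset hd4.le hd4.le K
            (Metric.mem_cthickening_of_dist_le (x - t) x (d / 4) _ hx ?_))
        rw [dist_eq_norm, sub_sub_cancel_left, norm_neg]
        exact not_lt.1 ht
      simp [hm]
  have hχ1' : ∀ x ∈ K, χ =ᶠ[𝓝 x] fun _ => (1 : ℝ) := by
    intro x hx
    filter_upwards [Metric.ball_mem_nhds x hd4] with y hy
    exact hχ1 y (Metric.mem_cthickening_of_dist_le y x (d / 4) K hx
      (Metric.mem_ball.1 hy).le)
  set g : Fin 3 → Sp3 → ℝ := fun i x =>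
    χ x * Ω.indicator (fun y => G y k i - if i = k then 1 else 0) x with hg
  refine ⟨g, fun i => ?_, fun i ψ hψ hψc => ?_⟩
  · have h1 : MemLp (Ω.indicator fun y => G y k i - if i = k then 1 else 0) (ENNReal.ofReal p) :=
      (memLp_indicator_iff_restrict hΩ.measurableSet).2
        (((hG k).2 i).1.sub (memLp_of_continuous hb continuous_const))
    obtain ⟨C, hC⟩ := hχc.exists_bound_of_continuous hχs.continuous
    refine (h1.const_mul |C|).mono (hχs.continuous.aestronglyMeasurable.mul h1.1)
      (Eventually.of_forall fun x => ?_)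
    simp only [hg, norm_mul, Real.norm_eq_abs, abs_abs]
    exact mul_le_mul_of_nonneg_right ((hC x).trans (le_abs_self C)) (abs_nonneg _)
  · have hp1 : ContDiff ℝ ∞ fun x => χ x * ψ x := hχs.mul hψ
    have hp2 : HasCompactSupport fun x => χ x * ψ x := hψc.mul_left
    have hp3 : tsupport (fun x => χ x * ψ x) ⊆ Ω :=
      (closure_minimal (fun x hx => by
        by_contra h
        exact hx (by simp [hχ0 x h])) Metric.isClosed_cthickening).trans hsub
    have hw := ((hG k).2 i).2 _ hp1 hp2 hp3
    have hcoord := ibp_global (sp3_coord_contDiff (N := 1) k) (hp1.of_le (by simp)) hp2 (ev3 i)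
    simp only [fderiv_coord] at hcoord
    have hl : ∀ x, q x * fderiv ℝ ψ x (ev3 i)
        = q x * fderiv ℝ (fun y => χ y * ψ y) x (ev3 i) := by
      intro x
      by_cases hx : x ∈ K
      · have e : (fun y => χ y * ψ y) =ᶠ[𝓝 x] ψ := by
          filter_upwards [hχ1' x hx] with y hy
          simp [hy]
        rw [e.fderiv_eq]
      · simp [hq0 x hx]
    set D := fun x => fderiv ℝ (fun y => χ y * ψ y) x (ev3 i) with hD
    have hDΩ : ∀ x ∉ Ω, D x = 0 := fun x hx => by
      simp [hD, fderiv_of_notMem_tsupport ℝ fun h => hx (hp3 h)]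
    have hDc : Continuous D :=
      (hp1.continuous_fderiv (by simp)).clm_apply continuous_const
    have hDs : HasCompactSupport D :=
      (hp2.fderiv (𝕜 := ℝ)).comp_left (g := fun L : Sp3 →L[ℝ] ℝ => L (ev3 i)) (by simp)
    have iq : Integrable fun x => q x * D x :=
      (hqc.mul hDc).integrable_of_hasCompactSupport hDs.mul_left
    have ix : Integrable fun x : Sp3 => x k * D x :=
      ((sp3_coord_contDiff (N := 0) k).continuous.mul hDc).integrable_of_hasCompactSupport
        hDs.mul_left
    have iG : Integrable fun x => g i x * ψ x + (if i = k then 1 else 0) * (χ x * ψ x) := by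
      refine Integrable.add ?_ ((continuous_const.mul hp1.continuous).integrable_of_hasCompactSupport
        hp2.mul_left)
      have hPΩ : MemLp (fun y => G y k i - if i = k then 1 else 0) (ENNReal.ofReal p)
          (volume.restrict Ω) := ((hG k).2 i).1.sub (memLp_of_continuous hb continuous_const)
      have hI : LocallyIntegrable (Ω.indicator fun y => G y k i - if i = k then 1 else 0) :=
        ((memLp_indicator_iff_restrict hΩ.measurableSet).2 hPΩ).locallyIntegrable
          (ENNReal.one_le_ofReal.2 hp)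
      exact (hI.integrable_smul_left_of_hasCompactSupport hp1.continuous hp2).congr
        (Eventually.of_forall fun y => by simp [hg]; ring)
    calc ∫ x, q x * fderiv ℝ ψ x (ev3 i) = ∫ x, q x * D x :=
          integral_congr_ae (Eventually.of_forall hl)
      _ = (∫ x in Ω, F x k * D x) - ∫ x, x k * D x := by
          have e1 : ∫ x in Ω, F x k * D x = ∫ x in Ω, (q x * D x + x k * D x) :=
            setIntegral_congr_fun hΩ.measurableSet fun x hx => by simp only [hq x hx]; ring
          rw [e1, setIntegral_eq_integral_of_forall_compl_eq_zero fun x hx => by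
            simp [hDΩ x hx], integral_add iq ix]
          ring
      _ = - ∫ x, g i x * ψ x := by
          have e2 : ∫ x in Ω, G x k i * (χ x * ψ x)
              = ∫ x, (g i x * ψ x + (if i = k then 1 else 0) * (χ x * ψ x)) := by
            rw [← setIntegral_eq_integral_of_forall_compl_eq_zero
              (s := Ω) (f := fun x => g i x * ψ x + (if i = k then 1 else 0) * (χ x * ψ x))
              fun x hx => by simp [hg, hx, hχ0 x fun h => hx (hsub h)]]
            refine setIntegral_congr_fun hΩ.measurableSet fun x hx => ?_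
            simp only [hg, Set.indicator_of_mem hx]
            ring
          have i3 : Integrable fun x => (if i = k then (1 : ℝ) else 0) * (χ x * ψ x) :=
            (continuous_const.mul hp1.continuous).integrable_of_hasCompactSupport hp2.mul_left
          have i4 : Integrable fun x => g i x * ψ x :=
            (iG.sub i3).congr (Eventually.of_forall fun x => by simp)
          have hw' : ∫ x in Ω, F x k * D x = - ∫ x in Ω, G x k i * (χ x * ψ x) := hw
          have hcoord' : ∫ x, x k * D x = - ∫ x, (if i = k then (1 : ℝ) else 0) * (χ x * ψ x) :=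
            hcoord
          rw [hw', e2, integral_add i4 i3, hcoord']
          ring

/-- Main theorem: compactly supported `W^{1,p}` vertical shears are approximable. -/
theorem approximable_of_shear {Ω : Set Sp3} (hΩ : IsOpen Ω) (hb : Bornology.IsBounded Ω) {p : ℝ}
    (hp : 1 ≤ p) {K : Set Sp3} (hK : IsCompact K) (hKΩ : K ⊆ Ω) {F : Sp3 → Sp3}
    (hbij : Set.BijOn F Ω Ω) (hcont : ContinuousOn F Ω)
    (hfix : ∀ x ∈ Ω, F x 0 = x 0 ∧ F x 1 = x 1) (hid : ∀ x ∈ Ω, x ∉ K → F x = x)
    (hW : ∃ G, IsWeakGrad Ω p F G) : DiffeoApproximable p Ω Ω F := by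
  classical
  obtain ⟨G, hG⟩ := hW
  set Ft : Sp3 → Sp3 := Ω.piecewise F id with hFt
  have hFtin : ∀ x ∈ Ω, Ft x = F x := fun x hx => Set.piecewise_eq_of_mem _ _ _ hx
  have hFtout : ∀ x ∉ K, Ft x = x := fun x hx => by
    by_cases hxΩ : x ∈ Ω
    · rw [hFtin x hxΩ]; exact hid x hxΩ hx
    · exact Set.piecewise_eq_of_notMem _ _ _ hxΩ
  have hFtc : Continuous Ft := continuous_iff_continuousAt.2 fun x => by
    by_cases hx : x ∈ Ω
    · exact (hcont.continuousAt (hΩ.mem_nhds hx)).congr
        (eventually_of_mem (hΩ.mem_nhds hx) fun y hy => (hFtin y hy).symm)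
    · refine continuousAt_id.congr (eventually_of_mem
        (hK.isClosed.isOpen_compl.mem_nhds fun h => hx (hKΩ h)) fun y hy => (hFtout y hy).symm)
  have hFtinj : Injective Ft := by
    intro a b hab
    have hmem : ∀ y, Ft y ∈ Ω ↔ y ∈ Ω := fun y => by
      by_cases hy : y ∈ Ω
      · simpa [hFtin y hy, hy] using hbij.mapsTo hy
      · rw [hFtout y fun h => hy (hKΩ h)]
    by_cases ha : a ∈ Ω
    · have hb' : b ∈ Ω := (hmem b).1 (hab ▸ (hmem a).2 ha)
      rw [hFtin a ha, hFtin b hb'] at hab
      exact hbij.injOn ha hb' hab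
    · have hb' : b ∉ Ω := fun h => ha ((hmem a).1 (hab ▸ (hmem b).2 h))
      rwa [hFtout a fun h => ha (hKΩ h), hFtout b fun h => hb' (hKΩ h)] at hab
  have hFtfix : ∀ x, Ft x 0 = x 0 ∧ Ft x 1 = x 1 := fun x => by
    by_cases hx : x ∈ Ω
    · rw [hFtin x hx]; exact hfix x hx
    · rw [hFtout x fun h => hx (hKΩ h)]; exact ⟨rfl, rfl⟩
  set q : Sp3 → ℝ := fun x => Ft x 2 - x 2 with hq
  have hqc : Continuous q :=
    ((sp3_coord_contDiff (N := 0) 2).continuous.comp hFtc).sub
      (sp3_coord_contDiff (N := 0) 2).continuous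
  have hq0 : ∀ x ∉ K, q x = 0 := fun x hx => by simp [hq, hFtout x hx]
  have hFtq : ∀ x, Ft x = shear q x := by
    intro x
    ext k
    fin_cases k <;> simp [shear_apply, hq, hFtfix x]
  have hline : ∀ x : Sp3, Monotone fun t : ℝ => t + q (x + t • ev3 2) := by
    intro x
    have hc : Continuous fun t : ℝ => t + q (x + t • ev3 2) :=
      continuous_id.add (hqc.comp (by fun_prop))
    have hi : Injective fun t : ℝ => t + q (x + t • ev3 2) := by
      intro s t hst
      have e : ∀ r : ℝ, Ft (x + r • ev3 2) = x + (r + q (x + r • ev3 2)) • ev3 2 := fun r => by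
        rw [hFtq, shear, add_smul, add_assoc]
      have h1 : Ft (x + s • ev3 2) = Ft (x + t • ev3 2) := by
        rw [e, e]
        exact congrArg (fun r : ℝ => x + r • ev3 2) hst
      have h2 := congrArg (fun v : Sp3 => v 2) (hFtinj h1)
      simpa [ev3] using h2
    rcases hc.strictMono_of_inj hi with h | h
    · exact h.monotone
    · exfalso
      obtain ⟨R, hR⟩ := hK.isBounded.subset_closedBall (0 : Sp3)
      have hout : ∀ r : ℝ, ‖x‖ + |R| < |r| → q (x + r • ev3 2) = 0 := fun r hr => hq0 _ fun hm => by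
        have h1 := mem_closedBall_zero_iff.1 (hR hm)
        have h2 : ‖r • ev3 2‖ ≤ ‖x + r • ev3 2‖ + ‖x‖ := by
          have := norm_sub_le (x + r • ev3 2) x
          simpa using this
        simp [ev3, norm_smul] at h2
        have := le_abs_self R
        simp [ev3] at h1
        linarith
      set r0 := ‖x‖ + |R| + 1 with hr0d
      have hr0 : 0 < r0 := by positivity
      have := h (show r0 < r0 + 1 by linarith)
      simp only [hout r0 (by linarith [le_abs_self r0]),
        hout (r0 + 1) (by linarith [le_abs_self (r0 + 1)])] at this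
      linarith
  obtain ⟨g, hgL, hgw⟩ := shear_data 2 hΩ hp hK hKΩ hG
    (fun x hx => by rw [hq, ← hFtin x hx]) hq0 hqc hb
  have hP : (1 : ℝ≥0∞) ≤ ENNReal.ofReal p := ENNReal.one_le_ofReal.2 hp
  have hql : LocallyIntegrable q := hqc.locallyIntegrable
  have hqL : MemLp q (ENNReal.ofReal p) :=
    hqc.memLp_of_hasCompactSupport (HasCompactSupport.intro hK hq0)
  obtain ⟨d, hd, hdΩ⟩ := hK.exists_cthickening_subset_open hΩ hKΩ
  set r : ℕ → ℝ := fun n => d * (1 / ((n : ℝ) + 1)) with hr
  have hrpos : ∀ n, 0 < r n := fun n => by positivity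
  have hr0 : Tendsto r atTop (𝓝 0) := by
    simpa [hr] using (tendsto_one_div_add_atTop_nhds_zero_nat (𝕜 := ℝ)).const_mul d
  set c : ℕ → ℝ := fun n => 1 - 1 / ((n : ℝ) + 1) with hc
  have hc1 : Tendsto c atTop (𝓝 1) := by
    simpa [hc] using (tendsto_one_div_add_atTop_nhds_zero_nat (𝕜 := ℝ)).const_sub 1
  have hc01 : ∀ n, 0 ≤ c n ∧ c n < 1 := fun n => by
    have h1 : 0 < 1 / ((n : ℝ) + 1) := by positivity
    have h2 : 1 / ((n : ℝ) + 1) ≤ 1 := by
      rw [div_le_one (by positivity)]
      linarith [(Nat.cast_nonneg n : (0 : ℝ) ≤ n)]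
    constructor <;> simp only [hc] <;> linarith
  set hn : ℕ → Sp3 → ℝ := fun n x => c n * smth (r n) (hrpos n) q x with hhn
  set gn : ℕ → Fin 3 → Sp3 → ℝ := fun n i x => c n * smth (r n) (hrpos n) (g i) x with hgn
  refine ⟨shearGrad g, ?_, fun n => shear (hn n), fun n => shearGrad (gn n), fun n => ⟨?_, ?_⟩, ?_⟩
  · have hsh : IsWeakGrad Ω p (shear q) (shearGrad g) :=
      isWeakGrad_shear hb hqc (fun i => (hgL i).mono_measure Measure.restrict_le_self)
        (fun i => (hgL i).locallyIntegrable hP) (fun i ψ h1 h2 _ => hgw i ψ h1 h2)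
    have hFeq : ∀ x ∈ Ω, F x = shear q x := fun x hx => by rw [← hFtq, hFtin x hx]
    intro k
    refine ⟨(hsh k).1.ae_eq ?_, fun i => ⟨((hsh k).2 i).1, fun ψ h1 h2 h3 => ?_⟩⟩
    · filter_upwards [ae_restrict_mem hΩ.measurableSet] with x hx
      rw [hFeq x hx]
    · rw [← ((hsh k).2 i).2 ψ h1 h2 h3]
      exact setIntegral_congr_fun hΩ.measurableSet fun x hx => by simp only [hFeq x hx]
  · have hsub : Metric.cthickening (r n) K ⊆ Ω := by
      refine (Metric.cthickening_mono ?_ K).trans hdΩ
      simp only [hr]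
      refine mul_le_of_le_one_right hd.le ?_
      rw [div_le_one (by positivity)]
      linarith [(Nat.cast_nonneg n : (0 : ℝ) ≤ n)]
    have hd' : Differentiable ℝ (smth (r n) (hrpos n) q) :=
      (smth_contDiff (hrpos n) hql (N := 1)).differentiable (by simp)
    refine isDiffeo_shear (contDiff_const.mul (smth_contDiff (hrpos n) hql)) hK.cthickening hsub
      (fun x hx => by simp [hhn, smth_eq_zero (hrpos n) hq0 hx]) fun x => ?_
    have h1 := smth_deriv_ge hqc hline (hrpos n) x
    show -1 < fderiv ℝ (fun y => c n * smth (r n) (hrpos n) q y) x (ev3 2)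
    rw [fderiv_const_mul (hd' x)]
    simp only [ContinuousLinearMap.smul_apply, smul_eq_mul]
    obtain ⟨hc0, hc'⟩ := hc01 n
    nlinarith
  · have hsm : ContDiff ℝ 1 (hn n) := contDiff_const.mul (smth_contDiff (hrpos n) hql)
    have hdn : ∀ i x, fderiv ℝ (hn n) x (ev3 i) = gn n i x := fun i x => by
      show fderiv ℝ (fun y => c n * smth (r n) (hrpos n) q y) x (ev3 i) = _
      rw [fderiv_const_mul ((smth_contDiff (hrpos n) hql (N := 1)).differentiable (by simp) x)]
      simp only [ContinuousLinearMap.smul_apply, smul_eq_mul,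
        fderiv_smth (hrpos n) hql i (hgw i), hgn]
    have hgc : ∀ i, Continuous (gn n i) := fun i => by
      have := (hsm.continuous_fderiv one_ne_zero).clm_apply (continuous_const (y := ev3 i))
      simpa only [hdn] using this
    refine isWeakGrad_shear hb hsm.continuous (fun i => memLp_of_continuous hb (hgc i))
      (fun i => (hgc i).locallyIntegrable) fun i ψ h1 h2 _ => ?_
    have := ibp_global hsm (h1.of_le (by simp)) h2 (ev3 i)
    simpa only [hdn] using this
  · have A := tendsto_scaled hp hqL hrpos hr0 hc1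
    have B := tendsto_finsetSum Finset.univ fun i (_ : i ∈ (Finset.univ : Finset (Fin 3))) =>
      tendsto_scaled hp (hgL i) hrpos hr0 hc1
    have hp0 : 0 < p := by linarith
    have hlim := ((ENNReal.continuous_rpow_const (y := p)).tendsto 0).comp A |>.add
      (((ENNReal.continuous_rpow_const (y := p)).tendsto _).comp B)
    simp only [Finset.sum_const_zero, ENNReal.zero_rpow_of_pos hp0, add_zero] at hlim
    refine tendsto_of_tendsto_of_tendsto_of_le_of_le tendsto_const_nhds hlim
      (fun n => zero_le) fun n => ?_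
    refine lintegral_error (F := shear (hn n)) (F' := F) (G := shearGrad (gn n))
      (G' := shearGrad g) hp
      (a := fun x => hn n x - q x) (b := fun i x => gn n i x - g i x) ?_ (fun i => ?_)
      (fun x hx => ?_) hΩ.measurableSet fun x _ k i => ?_
    · exact ((contDiff_const.mul (smth_contDiff (hrpos n) hql (N := 0))).continuous.sub
        hqc).aestronglyMeasurable
    · exact ((contDiff_const.mul (smth_contDiff (hrpos n) ((hgL i).locallyIntegrable hP)
        (N := 0))).continuous.aestronglyMeasurable).sub (hgL i).1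
    · rw [← hFtin x hx, hFtq]
      simp only [shear, add_sub_add_left_eq_sub, ← sub_smul, norm_smul]
      simp [ev3]
    · simp only [shearGrad]
      split_ifs <;> ring

end Vale.Agent.P073
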