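import Mathlib

/-!
# P073: Sobolev maps, diffeomorphisms and diffeomorphic approximability
-/

namespace Vale.Agent.P073

open MeasureTheory Filter Topology
open scoped ENNReal ContDiff

/-- `G` is the weak derivative matrix of `F` on `Ω`, and the components of `F` and `G` are in
`L^p(Ω)`: `G x k i` stands for `∂ᵢ F_k (x)`. -/
def IsWeakGrad (Ω : Set (EuclideanSpace ℝ (Fin 3))) (p : ℝ)
    (F : EuclideanSpace ℝ (Fin 3) → EuclideanSpace ℝ (Fin 3))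
    (G : EuclideanSpace ℝ (Fin 3) → Fin 3 → Fin 3 → ℝ) : Prop :=
  ∀ k, MemLp (fun x => F x k) (ENNReal.ofReal p) (volume.restrict Ω) ∧
    ∀ i, MemLp (fun x => G x k i) (ENNReal.ofReal p) (volume.restrict Ω) ∧
      ∀ ψ : EuclideanSpace ℝ (Fin 3) → ℝ, ContDiff ℝ ∞ ψ → HasCompactSupport ψ →
        tsupport ψ ⊆ Ω →
        ∫ x in Ω, F x k * fderiv ℝ ψ x (EuclideanSpace.single i 1)
          = - ∫ x in Ω, G x k i * ψ x

/-- `g` is a `C^∞` bijection of `Ω` onto `Λ` with `C^∞` inverse. -/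
def IsDiffeo (Ω Λ : Set (EuclideanSpace ℝ (Fin 3)))
    (g : EuclideanSpace ℝ (Fin 3) → EuclideanSpace ℝ (Fin 3)) : Prop :=
  Set.BijOn g Ω Λ ∧ ContDiffOn ℝ ∞ g Ω ∧
    ∃ h, ContDiffOn ℝ ∞ h Λ ∧ Set.InvOn h g Ω Λ

/-- `F` is the limit in `W^{1,p}(Ω)` of diffeomorphisms of `Ω` onto `Λ` lying in `W^{1,p}`. -/
def DiffeoApproximable (p : ℝ) (Ω Λ : Set (EuclideanSpace ℝ (Fin 3)))
    (F : EuclideanSpace ℝ (Fin 3) → EuclideanSpace ℝ (Fin 3)) : Prop :=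
  ∃ G, IsWeakGrad Ω p F G ∧
    ∃ (Fj : ℕ → EuclideanSpace ℝ (Fin 3) → EuclideanSpace ℝ (Fin 3))
      (Gj : ℕ → EuclideanSpace ℝ (Fin 3) → Fin 3 → Fin 3 → ℝ),
      (∀ j, IsDiffeo Ω Λ (Fj j) ∧ IsWeakGrad Ω p (Fj j) (Gj j)) ∧
      Tendsto (fun j => ∫⁻ x in Ω, ENNReal.ofReal
          (‖Fj j x - F x‖ ^ p + Real.sqrt (∑ k, ∑ i, (Gj j x k i - G x k i) ^ 2) ^ p))
        atTop (𝓝 0)

end Vale.Agent.P073
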