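import Vale.Agent.P073.DirMono

/-!
# P073: the approximation theorem for directionally monotone maps
-/

namespace Vale.Agent.P073

open MeasureTheory Filter Topology Function
open scoped ENNReal ContDiff

theorem clm_eq_sum (l : Sp3 →L[ℝ] ℝ) (w : Sp3) : l w = ∑ j, w j * l (ev3 j) := by
  have hw : w = ∑ j, w j • ev3 j := by
    ext k
    fin_cases k <;> simp [ev3, Fin.sum_univ_three]
  conv_lhs => rw [hw]
  simp

/-- Mollification commutes with linear combinations of the coordinates. -/
theorem smth_comb {δ : ℝ} (hδ : 0 < δ) {q : Fin 3 → Sp3 → ℝ} (hq : ∀ j, LocallyIntegrable (q j))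
    (a : Fin 3 → ℝ) (x : Sp3) :
    smth δ hδ (fun y => ∑ j, q j y * a j) x = ∑ j, smth δ hδ (q j) x * a j := by
  simp only [smth, Finset.mul_sum, ← mul_assoc]
  rw [integral_finsetSum _ fun j _ => (smth_integrand hδ (hq j) x).mul_const (a j)]
  simp only [integral_mul_const]

/-- Main theorem: directionally monotone `W^{1,p}` maps equal to the identity near the boundary
are approximable. -/
theorem approximable_of_dirMonotone {Ω : Set Sp3} (hΩ : IsOpen Ω) (hb : Bornology.IsBounded Ω)
    {p : ℝ} (hp : 1 ≤ p) {K : Set Sp3} (hK : IsCompact K) (hKΩ : K ⊆ Ω) {F : Sp3 → Sp3}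
    (hcont : ContinuousOn F Ω) (hid : ∀ x ∈ Ω, x ∉ K → F x = x) (hmono : DirMonotone Ω F)
    (hW : ∃ G, IsWeakGrad Ω p F G) : DiffeoApproximable p Ω Ω F := by
  classical
  obtain ⟨G, hG⟩ := hW
  set Ft : Sp3 → Sp3 := Ω.piecewise F id with hFt
  have hFtin : ∀ x ∈ Ω, Ft x = F x := fun x hx => Set.piecewise_eq_of_mem _ _ _ hx
  have hFtout : ∀ x ∉ K, Ft x = x := fun x hx => by
    by_cases hxΩ : x ∈ Ω
    · rw [hFtin x hxΩ]; exact hid x hxΩ hx
    · exact Set.piecewise_eq_of_notMem _ _ _ hxΩ
  have hFtc : Continuous Ft := continuous_iff_continuousAt.2 fun x => by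
    by_cases hx : x ∈ Ω
    · exact (hcont.continuousAt (hΩ.mem_nhds hx)).congr
        (eventually_of_mem (hΩ.mem_nhds hx) fun y hy => (hFtin y hy).symm)
    · refine continuousAt_id.congr (eventually_of_mem
        (hK.isClosed.isOpen_compl.mem_nhds fun h => hx (hKΩ h)) fun y hy => (hFtout y hy).symm)
  set q : Fin 3 → Sp3 → ℝ := fun k x => Ft x k - x k with hq
  have hqc : ∀ k, Continuous (q k) := fun k =>
    ((sp3_coord_contDiff (N := 0) k).continuous.comp hFtc).sub
      (sp3_coord_contDiff (N := 0) k).continuous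
  have hq0 : ∀ k, ∀ x ∉ K, q k x = 0 := fun k x hx => by simp [hq, hFtout x hx]
  have hFtq : ∀ x, Ft x = pert q x := fun x => by
    ext k
    simp [pert_apply, hq]
  have hdata : ∀ k, ∃ g : Fin 3 → Sp3 → ℝ, (∀ i, MemLp (g i) (ENNReal.ofReal p)) ∧
      (∀ i (ψ : Sp3 → ℝ), ContDiff ℝ ∞ ψ → HasCompactSupport ψ →
        ∫ x, q k x * fderiv ℝ ψ x (ev3 i) = - ∫ x, g i x * ψ x) := fun k =>
    shear_data k hΩ hp hK hKΩ hG (fun x hx => by rw [← hFtin x hx]) (hq0 k) (hqc k) hb
  choose g hgL hgw using hdata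
  have hP : (1 : ℝ≥0∞) ≤ ENNReal.ofReal p := ENNReal.one_le_ofReal.2 hp
  have hql : ∀ k, LocallyIntegrable (q k) := fun k => (hqc k).locallyIntegrable
  have hqL : ∀ k, MemLp (q k) (ENNReal.ofReal p) := fun k =>
    (hqc k).memLp_of_hasCompactSupport (HasCompactSupport.intro hK (hq0 k))
  obtain ⟨d, hd, hdΩ⟩ := hK.exists_cthickening_subset_open hΩ hKΩ
  set r : ℕ → ℝ := fun n => d * (1 / ((n : ℝ) + 1)) with hr
  have hrpos : ∀ n, 0 < r n := fun n => by positivity
  have hr0 : Tendsto r atTop (𝓝 0) := by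
    simpa [hr] using (tendsto_one_div_add_atTop_nhds_zero_nat (𝕜 := ℝ)).const_mul d
  set c : ℕ → ℝ := fun n => 1 - 1 / ((n : ℝ) + 1) with hc
  have hc1 : Tendsto c atTop (𝓝 1) := by
    simpa [hc] using (tendsto_one_div_add_atTop_nhds_zero_nat (𝕜 := ℝ)).const_sub 1
  have hc01 : ∀ n, 0 ≤ c n ∧ c n < 1 := fun n => by
    have h1 : 0 < 1 / ((n : ℝ) + 1) := by positivity
    have h2 : 1 / ((n : ℝ) + 1) ≤ 1 := by
      rw [div_le_one (by positivity)]
      linarith [(Nat.cast_nonneg n : (0 : ℝ) ≤ n)]
    constructor <;> simp only [hc] <;> linarith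
  set hn : ℕ → Fin 3 → Sp3 → ℝ := fun n k x => c n * smth (r n) (hrpos n) (q k) x with hhn
  set gn : ℕ → Fin 3 → Fin 3 → Sp3 → ℝ :=
    fun n k i x => c n * smth (r n) (hrpos n) (g k i) x with hgn
  have hsm : ∀ n k, ContDiff ℝ ∞ (hn n k) := fun n k =>
    contDiff_const.mul (smth_contDiff (hrpos n) (hql k))
  refine ⟨pertGrad g, ?_, fun n => pert (hn n), fun n => pertGrad (gn n), fun n => ⟨?_, ?_⟩, ?_⟩
  · have hsh : IsWeakGrad Ω p (pert q) (pertGrad g) :=
      isWeakGrad_pert hb hqc (fun k i => (hgL k i).mono_measure Measure.restrict_le_self)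
        (fun k i => (hgL k i).locallyIntegrable hP) (fun k i ψ h1 h2 _ => hgw k i ψ h1 h2)
    have hFeq : ∀ x ∈ Ω, F x = pert q x := fun x hx => by rw [← hFtq, hFtin x hx]
    intro k
    refine ⟨(hsh k).1.ae_eq ?_, fun i => ⟨((hsh k).2 i).1, fun ψ h1 h2 h3 => ?_⟩⟩
    · filter_upwards [ae_restrict_mem hΩ.measurableSet] with x hx
      rw [hFeq x hx]
    · rw [← ((hsh k).2 i).2 ψ h1 h2 h3]
      exact setIntegral_congr_fun hΩ.measurableSet fun x hx => by simp only [hFeq x hx]
  · have hsub : Metric.cthickening (r n) K ⊆ Ω := by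
      refine (Metric.cthickening_mono ?_ K).trans hdΩ
      simp only [hr]
      refine mul_le_of_le_one_right hd.le ?_
      rw [div_le_one (by positivity)]
      linarith [(Nat.cast_nonneg n : (0 : ℝ) ≤ n)]
    have hpd : ContDiff ℝ ∞ (pert (hn n)) :=
      contDiff_id.add (ContDiff.sum fun j _ => (hsm n j).smul contDiff_const)
    refine isDiffeo_dir hpd hK.cthickening hsub (fun x hx => ?_) fun v hv => ?_
    · ext k
      simp [pert_apply, hhn, smth_eq_zero (hrpos n) (hq0 k) hx]
    obtain ⟨l, hl, hlm⟩ := hmono v hv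
    refine ⟨l, fun x => ?_⟩
    set w : Sp3 → ℝ := fun y => ∑ j, q j y * l (ev3 j) with hw
    have hwc : Continuous w := continuous_finsetSum _ fun j _ => (hqc j).mul continuous_const
    have hwq : ∀ y, w y = l (Ft y) - l y := by
      intro y
      simp only [hw, clm_eq_sum l (Ft y), clm_eq_sum l y, hq, sub_mul, Finset.sum_sub_distrib]
    have hbound : -(l v) ≤ fderiv ℝ (smth (r n) (hrpos n) w) x v := by
      refine smth_dir_ge hwc (l v) v (fun z => ?_) (hrpos n) x
      have hm := monotone_line hΩ hK.isClosed hKΩ hFtin hFtout hFtc hl hlm z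
      intro s t hst
      have := hm hst
      simp only [hwq, map_add, map_smul, smul_eq_mul] at this ⊢
      linarith
    have he : (fun y => l (pert (hn n) y)) = fun y => l y + c n * smth (r n) (hrpos n) w y := by
      funext y
      rw [pert, map_add, map_sum]
      rw [show smth (r n) (hrpos n) w y = ∑ j, smth (r n) (hrpos n) (q j) y * l (ev3 j) from
        smth_comb (hrpos n) hql _ y, Finset.mul_sum]
      simp [hhn, mul_assoc]
    have hdl : l (fderiv ℝ (pert (hn n)) x v) = fderiv ℝ (fun y => l (pert (hn n) y)) x v := by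
      rw [show (fun y => l (pert (hn n) y)) = l ∘ pert (hn n) from rfl,
        (l.hasFDerivAt.comp x ((hpd.differentiable (by simp)) x).hasFDerivAt).fderiv]
      rfl
    have hds : Differentiable ℝ (smth (r n) (hrpos n) w) :=
      (smth_contDiff (hrpos n) hwc.locallyIntegrable (N := 1)).differentiable (by simp)
    have hsum : HasFDerivAt (fun y => l y + c n * smth (r n) (hrpos n) w y)
        (l + c n • fderiv ℝ (smth (r n) (hrpos n) w) x) x :=
      l.hasFDerivAt.add ((hds x).hasFDerivAt.const_mul (c n))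
    rw [hdl, he, hsum.fderiv]
    simp only [add_apply, smul_apply, smul_eq_mul]
    obtain ⟨hc0, hc'⟩ := hc01 n
    nlinarith
  · have hdn : ∀ k i x, fderiv ℝ (hn n k) x (ev3 i) = gn n k i x := fun k i x => by
      show fderiv ℝ (fun y => c n * smth (r n) (hrpos n) (q k) y) x (ev3 i) = _
      rw [fderiv_const_mul ((smth_contDiff (hrpos n) (hql k) (N := 1)).differentiable (by simp) x)]
      simp only [smul_apply, smul_eq_mul, fderiv_smth (hrpos n) (hql k) i (hgw k i), hgn]
    have hs1 : ∀ k, ContDiff ℝ 1 (hn n k) := fun k => (hsm n k).of_le (by simp)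
    have hgc : ∀ k i, Continuous (gn n k i) := fun k i => by
      have := ((hs1 k).continuous_fderiv one_ne_zero).clm_apply (continuous_const (y := ev3 i))
      simpa only [hdn] using this
    refine isWeakGrad_pert hb (fun k => (hs1 k).continuous)
      (fun k i => memLp_of_continuous hb (hgc k i))
      (fun k i => (hgc k i).locallyIntegrable) fun k i ψ h1 h2 _ => ?_
    have := ibp_global (hs1 k) (h1.of_le (by simp)) h2 (ev3 i)
    simpa only [hdn] using this
  · have A := tendsto_finsetSum Finset.univ fun k (_ : k ∈ (Finset.univ : Finset (Fin 3))) =>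
      tendsto_scaled hp (hqL k) hrpos hr0 hc1
    have B := tendsto_finsetSum Finset.univ
      fun e (_ : e ∈ (Finset.univ : Finset (Fin 3 × Fin 3))) =>
      tendsto_scaled hp (hgL e.1 e.2) hrpos hr0 hc1
    have hp0 : 0 < p := by linarith
    have hlim := (((ENNReal.continuous_rpow_const (y := p)).tendsto _).comp A).add
      (((ENNReal.continuous_rpow_const (y := p)).tendsto _).comp B)
    simp only [Finset.sum_const_zero, ENNReal.zero_rpow_of_pos hp0, add_zero] at hlim
    refine tendsto_of_tendsto_of_tendsto_of_le_of_le tendsto_const_nhds hlim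
      (fun n => zero_le) fun n => ?_
    refine lintegral_error_vec (F := pert (hn n)) (F' := F) (G := pertGrad (gn n))
      (G' := pertGrad g) hp (a := fun k x => hn n k x - q k x)
      (b := fun k i x => gn n k i x - g k i x) (fun k => ?_) (fun k i => ?_)
      (fun x hx k => ?_) hΩ.measurableSet fun x _ k i => ?_
    · exact ((hsm n k).continuous.sub (hqc k)).aestronglyMeasurable
    · exact ((contDiff_const.mul (smth_contDiff (hrpos n) ((hgL k i).locallyIntegrable hP)
        (N := 0))).continuous.aestronglyMeasurable).sub (hgL k i).1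
    · rw [← hFtin x hx, hFtq]
      simp only [pert_apply]
      ring
    · simp only [pertGrad]
      ring

end Vale.Agent.P073
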