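import Vale.Agent.P073.Shear

/-!
# P073: perturbations of the identity in all three coordinates
-/

namespace Vale.Agent.P073

open MeasureTheory Filter Topology Function
open scoped ENNReal ContDiff

/-- The map `x + h(x)` given by its three coordinate functions. -/
noncomputable def pert (h : Fin 3 → Sp3 → ℝ) (x : Sp3) : Sp3 := x + ∑ j, h j x • ev3 j

theorem pert_apply (h : Fin 3 → Sp3 → ℝ) (x : Sp3) (k : Fin 3) :
    pert h x k = x k + h k x := by
  fin_cases k <;> simp [pert, ev3, Fin.sum_univ_three]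

/-- The derivative matrix of `x + h(x)`. -/
noncomputable def pertGrad (g : Fin 3 → Fin 3 → Sp3 → ℝ) (x : Sp3) (k i : Fin 3) : ℝ :=
  (if i = k then 1 else 0) + g k i x

theorem isWeakGrad_pert {Ω : Set Sp3} (hΩ : Bornology.IsBounded Ω) {p : ℝ} {h : Fin 3 → Sp3 → ℝ}
    {g : Fin 3 → Fin 3 → Sp3 → ℝ} (hh : ∀ k, Continuous (h k))
    (hg : ∀ k i, MemLp (g k i) (ENNReal.ofReal p) (volume.restrict Ω))
    (hgl : ∀ k i, LocallyIntegrable (g k i))
    (hw : ∀ k i (ψ : Sp3 → ℝ), ContDiff ℝ ∞ ψ → HasCompactSupport ψ → tsupport ψ ⊆ Ω →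
      ∫ x, h k x * fderiv ℝ ψ x (ev3 i) = - ∫ x, g k i x * ψ x) :
    IsWeakGrad Ω p (pert h) (pertGrad g) := by
  intro k
  refine ⟨?_, fun i => ⟨?_, fun ψ hψ hψc hψΩ => ?_⟩⟩
  · simp only [pert_apply]
    exact memLp_of_continuous hΩ ((sp3_coord_contDiff (N := 0) k).continuous.add (hh k))
  · simp only [pertGrad]
    exact (memLp_of_continuous hΩ continuous_const).add (hg k i)
  · rw [setIntegral_test_deriv hψΩ (f := fun x => pert h x k),
      setIntegral_test hψΩ (f := fun x => pertGrad g x k i)]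
    have hψ1 : ContDiff ℝ 1 ψ := hψ.of_le (by simp)
    have hc := ibp_global (sp3_coord_contDiff (N := 1) k) hψ1 hψc (ev3 i)
    simp only [fderiv_coord] at hc
    have hdc : HasCompactSupport fun x => fderiv ℝ ψ x (ev3 i) :=
      (hψc.fderiv (𝕜 := ℝ)).comp_left (g := fun L : Sp3 →L[ℝ] ℝ => L (ev3 i)) (by simp)
    have hdcont : Continuous fun x => fderiv ℝ ψ x (ev3 i) :=
      (hψ1.continuous_fderiv one_ne_zero).clm_apply continuous_const
    show ∫ x, pert h x k * fderiv ℝ ψ x (ev3 i) = _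
    simp only [pert_apply, pertGrad, add_mul]
    have i1 : Integrable fun y : Sp3 => y k * fderiv ℝ ψ y (ev3 i) :=
      ((sp3_coord_contDiff (N := 0) k).continuous.mul hdcont).integrable_of_hasCompactSupport
        hdc.mul_left
    have i2 : Integrable fun y : Sp3 => h k y * fderiv ℝ ψ y (ev3 i) :=
      ((hh k).mul hdcont).integrable_of_hasCompactSupport hdc.mul_left
    have i3 : Integrable fun y : Sp3 => (if i = k then (1 : ℝ) else 0) * ψ y :=
      (continuous_const.mul hψ.continuous).integrable_of_hasCompactSupport hψc.mul_left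
    have i4 : Integrable fun y : Sp3 => g k i y * ψ y :=
      ((hgl k i).integrable_smul_left_of_hasCompactSupport hψ.continuous hψc).congr
        (Eventually.of_forall fun y => by simp [mul_comm])
    rw [integral_add i1 i2, integral_add i3 i4, hc, hw k i ψ hψ hψc hψΩ]
    ring

/-- The error of two maps in terms of their coordinates. -/
theorem lintegral_error_vec {Ω : Set Sp3} {p : ℝ} (hp : 1 ≤ p) {a : Fin 3 → Sp3 → ℝ}
    {b : Fin 3 → Fin 3 → Sp3 → ℝ} (ha : ∀ k, AEStronglyMeasurable (a k))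
    (hb : ∀ k i, AEStronglyMeasurable (b k i)) {F F' : Sp3 → Sp3}
    {G G' : Sp3 → Fin 3 → Fin 3 → ℝ}
    (hF : ∀ x ∈ Ω, ∀ k, F x k - F' x k = a k x) (hΩ : MeasurableSet Ω)
    (hG : ∀ x ∈ Ω, ∀ k i, G x k i - G' x k i = b k i x) :
    ∫⁻ x in Ω, ENNReal.ofReal
        (‖F x - F' x‖ ^ p + Real.sqrt (∑ k, ∑ i, (G x k i - G' x k i) ^ 2) ^ p)
      ≤ (∑ k, eLpNorm (a k) (ENNReal.ofReal p)) ^ p
        + (∑ e : Fin 3 × Fin 3, eLpNorm (b e.1 e.2) (ENNReal.ofReal p)) ^ p := by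
  have hp0 : 0 < p := by linarith
  have key : ∀ {ι : Type} [Fintype ι] (z : ι → ℝ), Real.sqrt (∑ i, z i ^ 2) ≤ ∑ i, |z i| := by
    intro ι _ z
    refine Real.sqrt_le_iff.2 ⟨Finset.sum_nonneg fun i _ => abs_nonneg _, ?_⟩
    calc ∑ i, z i ^ 2 = ∑ i, |z i| ^ 2 := by simp [sq_abs]
      _ ≤ (∑ i, |z i|) ^ 2 := Finset.sum_sq_le_sq_sum_of_nonneg fun i _ => abs_nonneg _
  have sum_bd : ∀ {ι : Type} [Fintype ι] (z : ι → Sp3 → ℝ), (∀ i, AEStronglyMeasurable (z i)) →
      ∫⁻ x in Ω, ENNReal.ofReal (|(∑ i, |z i x|)| ^ p)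
        ≤ (∑ i, eLpNorm (z i) (ENNReal.ofReal p)) ^ p := by
    intro ι _ z hz
    refine (lintegral_ofReal_rpow hp).trans (ENNReal.rpow_le_rpow ?_ hp0.le)
    rw [show (fun x => ∑ i, |z i x|) = ∑ i, fun x => |z i x| by funext x; simp [Finset.sum_apply]]
    refine (eLpNorm_sum_le (fun i _ => (hz i).norm) (ENNReal.one_le_ofReal.2 hp)).trans
      (le_of_eq (Finset.sum_congr rfl fun i _ => ?_))
    exact eLpNorm_norm (z i)
  have hpt : ∀ x ∈ Ω, ENNReal.ofReal
      (‖F x - F' x‖ ^ p + Real.sqrt (∑ k, ∑ i, (G x k i - G' x k i) ^ 2) ^ p)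
      ≤ ENNReal.ofReal (|(∑ k, |a k x|)| ^ p)
        + ENNReal.ofReal (|(∑ e : Fin 3 × Fin 3, |b e.1 e.2 x|)| ^ p) := by
    intro x hx
    refine ENNReal.ofReal_add_le.trans (add_le_add (ENNReal.ofReal_le_ofReal ?_)
      (ENNReal.ofReal_le_ofReal ?_))
    · refine Real.rpow_le_rpow (norm_nonneg _) ?_ hp0.le
      rw [abs_of_nonneg (Finset.sum_nonneg fun i _ => abs_nonneg _), EuclideanSpace.norm_eq]
      simpa [hF x hx] using key fun k => a k x
    · refine Real.rpow_le_rpow (Real.sqrt_nonneg _) ?_ hp0.le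
      rw [abs_of_nonneg (Finset.sum_nonneg fun i _ => abs_nonneg _)]
      simp only [hG x hx]
      rw [← Fintype.sum_prod_type']
      exact key fun e : Fin 3 × Fin 3 => b e.1 e.2 x
  refine (setLIntegral_mono' hΩ hpt).trans ?_
  have hma : AEMeasurable (fun x => ENNReal.ofReal (|(∑ k, |a k x|)| ^ p)) (volume.restrict Ω) :=
    (((Finset.aemeasurable_fun_sum _ fun k _ => (ha k).aemeasurable.abs).abs.pow_const
      p).ennreal_ofReal).restrict
  rw [lintegral_add_left' hma]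
  exact add_le_add (sum_bd a ha) (sum_bd (fun e : Fin 3 × Fin 3 => b e.1 e.2) fun e => hb _ _)

end Vale.Agent.P073
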