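import Vale.Agent.P073.Approx
import Vale.Agent.P073.Vec

/-!
# P073: maps monotone in every direction are diffeomorphically approximable

For each direction `v` a linear form `l`, positive on `v`, must be non-decreasing along the
segments parallel to `v` inside `Ω` after composing with the map.
-/

namespace Vale.Agent.P073

open MeasureTheory Filter Topology Function
open scoped ENNReal ContDiff

/-- In each direction some positive linear form does not decrease along segments in `Ω`. -/
def DirMonotone (Ω : Set Sp3) (F : Sp3 → Sp3) : Prop :=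
  ∀ v : Sp3, v ≠ 0 → ∃ l : Sp3 →L[ℝ] ℝ, 0 < l v ∧
    ∀ x : Sp3, ∀ s : ℝ, 0 < s → segment ℝ x (x + s • v) ⊆ Ω → l (F x) ≤ l (F (x + s • v))

theorem monotone_of_eventually {φ : ℝ → ℝ} (hc : Continuous φ)
    (h : ∀ t, ∀ᶠ u in 𝓝[>] t, φ t ≤ φ u) : Monotone φ := by
  intro a b hab
  have hs : Set.Icc a b ⊆ {t | φ a ≤ φ t} := by
    refine IsClosed.Icc_subset_of_forall_mem_nhdsWithin
      ((isClosed_le continuous_const hc).inter isClosed_Icc) (show φ a ≤ φ a from le_rfl) fun t ht => ?_
    filter_upwards [h t] with u hu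
    exact le_trans ht.1 hu
  exact hs ⟨hab, le_rfl⟩

/-- The extension by the identity keeps the monotonicity along whole lines. -/
theorem monotone_line {Ω K : Set Sp3} (hΩ : IsOpen Ω) (hK : IsClosed K) (hKΩ : K ⊆ Ω)
    {F Ft : Sp3 → Sp3} (hin : ∀ x ∈ Ω, Ft x = F x) (hout : ∀ x ∉ K, Ft x = x)
    (hc : Continuous Ft) {v : Sp3} {l : Sp3 →L[ℝ] ℝ} (hl : 0 < l v)
    (hmono : ∀ x : Sp3, ∀ s : ℝ, 0 < s → segment ℝ x (x + s • v) ⊆ Ω →
      l (F x) ≤ l (F (x + s • v))) (x : Sp3) :
    Monotone fun t : ℝ => l (Ft (x + t • v)) := by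
  refine monotone_of_eventually (l.continuous.comp (hc.comp (by fun_prop))) fun t => ?_
  by_cases ht : x + t • v ∈ K
  · obtain ⟨ε, hε, hball⟩ := Metric.isOpen_iff.1 hΩ _ (hKΩ ht)
    have h1 : Tendsto (fun u : ℝ => x + u • v) (𝓝[>] t) (𝓝 (x + t • v)) :=
      ((by fun_prop : Continuous fun u : ℝ => x + u • v).tendsto t).mono_left nhdsWithin_le_nhds
    filter_upwards [h1.eventually (Metric.ball_mem_nhds _ hε), self_mem_nhdsWithin] with u hu htu
    have hu' : x + u • v = (x + t • v) + (u - t) • v := by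
      rw [sub_smul]; abel
    rw [hin _ (hKΩ ht), hin _ (hball hu), hu']
    refine hmono _ _ (sub_pos.2 htu) ?_
    rw [← hu']
    exact ((convex_ball _ _).segment_subset (Metric.mem_ball_self hε) hu).trans hball
  · have h1 : Tendsto (fun u : ℝ => x + u • v) (𝓝[>] t) (𝓝 (x + t • v)) :=
      ((by fun_prop : Continuous fun u : ℝ => x + u • v).tendsto t).mono_left nhdsWithin_le_nhds
    filter_upwards [h1.eventually (hK.isOpen_compl.mem_nhds ht), self_mem_nhdsWithin]
      with u hu htu
    rw [hout _ ht, hout _ hu]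
    simp only [map_add, map_smul, smul_eq_mul]
    have : t * l v ≤ u * l v := mul_le_mul_of_nonneg_right (le_of_lt htu) hl.le
    linarith

/-- Mollification keeps a lower bound on a directional derivative. -/
theorem smth_dir_ge {q : Sp3 → ℝ} (hq : Continuous q) (a : ℝ) (v : Sp3)
    (hmono : ∀ x : Sp3, Monotone fun t : ℝ => t * a + q (x + t • v)) {δ : ℝ} (hδ : 0 < δ)
    (x : Sp3) : -a ≤ fderiv ℝ (smth δ hδ q) x v := by
  have hl : LocallyIntegrable q := hq.locallyIntegrable
  have hmon : Monotone fun t : ℝ => t * a + smth δ hδ q (x + t • v) := by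
    intro s t hst
    simp only
    have e : ∀ r : ℝ, r * a + smth δ hδ q (x + r • v)
        = ∫ z, mol δ hδ z * (r * a + q (x + r • v - z)) := by
      intro r
      simp only [mul_add]
      rw [integral_add ((mol_integrable hδ).mul_const (r * a)) (smth_integrand hδ hl _),
        integral_mul_const, mol_integral, one_mul]
      rfl
    rw [e, e]
    refine integral_mono ?_ ?_ fun z => mul_le_mul_of_nonneg_left ?_ (mol_nonneg hδ z)
    · simp only [mul_add]
      exact ((mol_integrable hδ).mul_const _).add (smth_integrand hδ hl _)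
    · simp only [mul_add]
      exact ((mol_integrable hδ).mul_const _).add (smth_integrand hδ hl _)
    · have := hmono (x - z) hst
      simpa [sub_add_eq_add_sub] using this
  have h1 : HasDerivAt (fun t : ℝ => x + t • v) v 0 := by
    simpa using ((hasDerivAt_id (0 : ℝ)).smul_const v).const_add x
  have h2 := (((smth_contDiff hδ hl (N := 1)).differentiable (by simp)
    (x + (0 : ℝ) • v)).hasFDerivAt.comp_hasDerivAt (0 : ℝ) h1)
  have h3 := ((hasDerivAt_id (0 : ℝ)).mul_const a).add h2
  have h4 : 0 ≤ deriv (fun t : ℝ => t * a + smth δ hδ q (x + t • v)) 0 := hmon.deriv_nonneg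
  rw [show (fun t : ℝ => t * a + smth δ hδ q (x + t • v))
    = (fun t : ℝ => id t * a) + smth δ hδ q ∘ fun t : ℝ => x + t • v from rfl, h3.deriv,
    one_mul, zero_smul, add_zero] at h4
  linarith

/-- A smooth map, the identity outside a compact subset of `Ω`, with derivative positive on each
direction for one linear form, is a diffeomorphism of `Ω`. -/
theorem isDiffeo_dir {Ω K : Set Sp3} {f : Sp3 → Sp3} (hsm : ContDiff ℝ ∞ f) (hK : IsCompact K)
    (hKΩ : K ⊆ Ω) (h0 : ∀ x ∉ K, f x = x)
    (hpos : ∀ v : Sp3, v ≠ 0 → ∃ l : Sp3 →L[ℝ] ℝ, ∀ x, 0 < l (fderiv ℝ f x v)) :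
    IsDiffeo Ω Ω f := by
  have hd : Differentiable ℝ f := hsm.differentiable (by simp)
  have hinj : Injective f := by
    intro a b hab
    by_contra hne
    obtain ⟨l, hl⟩ := hpos (b - a) (sub_ne_zero.2 (Ne.symm hne))
    have hm : StrictMono fun t : ℝ => l (f (a + t • (b - a))) := by
      refine strictMono_of_hasDerivAt_pos
        (f' := fun t => l (fderiv ℝ f (a + t • (b - a)) (b - a))) (fun t => ?_) fun t => hl _
      have h1 : HasDerivAt (fun s : ℝ => a + s • (b - a)) (b - a) t := by
        simpa using ((hasDerivAt_id t).smul_const (b - a)).const_add a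
      exact l.hasFDerivAt.comp_hasDerivAt t ((hd _).hasFDerivAt.comp_hasDerivAt t h1)
    have := hm (show (0 : ℝ) < 1 by norm_num)
    simp [hab] at this
  have hker : ∀ x, Injective (fderiv ℝ f x) := by
    intro x
    refine (injective_iff_map_eq_zero (fderiv ℝ f x)).2 fun v hv => ?_
    by_contra hne
    obtain ⟨l, hl⟩ := hpos v hne
    have := hl x
    rw [hv, map_zero] at this
    exact lt_irrefl _ this
  let Le : Sp3 → Sp3 ≃L[ℝ] Sp3 := fun x =>
    ((fderiv ℝ f x).toLinearMap.linearEquivOfInjective (hker x) rfl).toContinuousLinearEquiv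
  have hder' : ∀ x, HasFDerivAt f (Le x : Sp3 →L[ℝ] Sp3) x := fun x => by
    convert (hd x).hasFDerivAt using 1
    ext v
    simp [Le]
  have hopen : IsOpenMap f := by
    refine IsOpenMap.of_nhds_le fun x => ?_
    have hs := hsm.contDiffAt.hasStrictFDerivAt' (hder' x) (by simp)
    rw [hs.map_nhds_eq_of_equiv]
  have hid : ∀ x ∈ closure Kᶜ, f x = x :=
    fun x hx => Set.EqOn.closure (fun y hy => h0 y hy) hsm.continuous continuous_id hx
  have hrange : Set.range f = f '' K ∪ closure Kᶜ := by
    ext y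
    constructor
    · rintro ⟨x, rfl⟩
      by_cases hx : x ∈ K
      · exact Or.inl ⟨x, hx, rfl⟩
      · exact Or.inr (by rw [h0 x hx]; exact subset_closure hx)
    · rintro (⟨x, -, rfl⟩ | hy)
      · exact ⟨x, rfl⟩
      · exact ⟨y, hid y hy⟩
  have hsurj : Surjective f := by
    have hclopen : IsClopen (Set.range f) :=
      ⟨hrange ▸ (hK.image hsm.continuous).isClosed.union isClosed_closure, hopen.isOpen_range⟩
    exact Set.range_eq_univ.1 (hclopen.eq_univ (Set.range_nonempty f))
  let e : Sp3 ≃ₜ Sp3 :=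
    (Equiv.ofBijective f ⟨hinj, hsurj⟩).toHomeomorphOfContinuousOpen hsm.continuous hopen
  have hsymm : ContDiff ℝ ∞ e.symm := Homeomorph.contDiff_symm e hder' hsm
  have hmem : ∀ x, f x ∈ Ω ↔ x ∈ Ω := by
    intro x
    by_cases hx : x ∈ K
    · refine ⟨fun _ => hKΩ hx, fun _ => ?_⟩
      by_contra hn
      have hz : f (f x) = f x := h0 _ fun hm' => hn (hKΩ hm')
      exact hn ((hinj hz).symm ▸ hKΩ hx)
    · rw [h0 x hx]
  refine ⟨⟨fun x hx => (hmem x).2 hx, hinj.injOn, fun y hy => ?_⟩, hsm.contDiffOn,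
    e.symm, hsymm.contDiffOn, fun x _ => e.symm_apply_apply x, fun y _ => e.apply_symm_apply y⟩
  obtain ⟨x, rfl⟩ := hsurj y
  exact ⟨x, (hmem x).1 hy, rfl⟩

end Vale.Agent.P073
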