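import Mathlib

/-!
# P073: mollification in `L^p` and weak derivatives
-/

namespace Vale.Agent.P073

open MeasureTheory Filter Topology Function
open scoped ENNReal ContDiff Convolution

/-- Euclidean three-space. -/
abbrev Sp3 := EuclideanSpace ℝ (Fin 3)

/-- The `i`-th coordinate vector. -/
noncomputable def ev3 (i : Fin 3) : Sp3 := EuclideanSpace.single i 1

/-- The standard mollifier of radius `δ`. -/
noncomputable def mol (δ : ℝ) (hδ : 0 < δ) : Sp3 → ℝ :=
  (⟨δ / 2, δ, by linarith, by linarith⟩ : ContDiffBump (0 : Sp3)).normed volume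

/-- Mollification. -/
noncomputable def smth (δ : ℝ) (hδ : 0 < δ) (h : Sp3 → ℝ) (x : Sp3) : ℝ :=
  ∫ t, mol δ hδ t * h (x - t)

variable {δ : ℝ} (hδ : 0 < δ)

theorem mol_contDiff {N : ℕ∞} : ContDiff ℝ N (mol δ hδ) := ContDiffBump.contDiff_normed _

theorem mol_nonneg (t : Sp3) : 0 ≤ mol δ hδ t := ContDiffBump.nonneg_normed _ t

theorem mol_compact : HasCompactSupport (mol δ hδ) := ContDiffBump.hasCompactSupport_normed _

theorem mol_integral : ∫ t, mol δ hδ t = 1 := ContDiffBump.integral_normed _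

theorem mol_integrable : Integrable (mol δ hδ) :=
  (mol_contDiff hδ (N := 0)).continuous.integrable_of_hasCompactSupport (mol_compact hδ)

theorem mol_eq_zero {t : Sp3} (ht : δ < ‖t‖) : mol δ hδ t = 0 := by
  refine image_eq_zero_of_notMem_tsupport ?_
  rw [mol, ContDiffBump.tsupport_normed_eq, mem_closedBall_zero_iff]
  exact not_le.2 ht

theorem smth_contDiff {h : Sp3 → ℝ} (hh : LocallyIntegrable h) {N : ℕ∞} :
    ContDiff ℝ N (smth δ hδ h) := by
  have : smth δ hδ h = (mol δ hδ ⋆[ContinuousLinearMap.lsmul ℝ ℝ, volume] h) := by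
    funext x
    simp [smth, convolution_def]
  rw [this]
  exact (mol_compact hδ).contDiff_convolution_left _ (mol_contDiff hδ) hh

theorem smth_eq_zero {h : Sp3 → ℝ} {K : Set Sp3} (hK : ∀ x ∉ K, h x = 0) {x : Sp3}
    (hx : x ∉ Metric.cthickening δ K) : smth δ hδ h x = 0 := by
  refine integral_eq_zero_of_ae (Eventually.of_forall fun t => ?_)
  by_cases ht : δ < ‖t‖
  · simp [mol_eq_zero hδ ht]
  · have : h (x - t) = 0 := hK _ fun hm => hx
      (Metric.mem_cthickening_of_dist_le x (x - t) δ K hm (by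
        rw [dist_eq_norm, sub_sub_cancel]
        exact not_lt.1 ht))
    simp [this]

/-- The probability measure with density `mol`. -/
noncomputable def molMeasure : Measure Sp3 :=
  volume.withDensity fun t => ENNReal.ofReal (mol δ hδ t)

theorem molMeasure_univ : molMeasure hδ Set.univ = 1 := by
  rw [molMeasure, withDensity_apply _ MeasurableSet.univ, setLIntegral_univ,
    ← ofReal_integral_eq_lintegral_ofReal (mol_integrable hδ)
      (Eventually.of_forall (mol_nonneg hδ)), mol_integral, ENNReal.ofReal_one]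

/-- Young's inequality for the mollifier. -/
theorem lintegral_smth_rpow_le {p : ℝ} (hp : 1 ≤ p) {h : Sp3 → ℝ} (hh : Measurable h) :
    ∫⁻ x, ‖smth δ hδ h x‖ₑ ^ p ≤ ∫⁻ x, ‖h x‖ₑ ^ p := by
  haveI : IsProbabilityMeasure (molMeasure hδ) := ⟨molMeasure_univ hδ⟩
  set m : Sp3 → ℝ≥0∞ := fun t => ENNReal.ofReal (mol δ hδ t) with hm
  have hmm : Measurable m := (mol_contDiff hδ (N := 0)).continuous.measurable.ennreal_ofReal
  have hp0 : 0 < p := by linarith
  have h1 : ∀ x, ‖smth δ hδ h x‖ₑ ^ p ≤ ∫⁻ t, m t * ‖h (x - t)‖ₑ ^ p := by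
    intro x
    have hmeas : Measurable fun t => h (x - t) := hh.comp (measurable_const.sub measurable_id)
    have he : eLpNorm (fun t => h (x - t)) 1 (molMeasure hδ)
        ≤ eLpNorm (fun t => h (x - t)) (ENNReal.ofReal p) (molMeasure hδ) :=
      eLpNorm_le_eLpNorm_of_exponent_le (ENNReal.one_le_ofReal.2 hp) hmeas.aestronglyMeasurable
    rw [eLpNorm_one_eq_lintegral_enorm, eLpNorm_eq_lintegral_rpow_enorm_toReal
      (by simp [hp0]) ENNReal.ofReal_ne_top, ENNReal.toReal_ofReal hp0.le, one_div,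
      ENNReal.le_rpow_inv_iff hp0] at he
    refine le_trans (ENNReal.rpow_le_rpow ?_ hp0.le) (he.trans (le_of_eq ?_))
    · refine (enorm_integral_le_lintegral_enorm _).trans (le_of_eq ?_)
      rw [molMeasure, lintegral_withDensity_eq_lintegral_mul _ hmm hmeas.enorm]
      refine lintegral_congr fun t => ?_
      rw [Pi.mul_apply, enorm_mul, Real.enorm_eq_ofReal (mol_nonneg hδ t)]
    · rw [molMeasure, lintegral_withDensity_eq_lintegral_mul _ hmm (hmeas.enorm.pow_const p)]
      rfl
  refine (lintegral_mono h1).trans (le_of_eq ?_)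
  have hjoint : Measurable fun z : Sp3 × Sp3 => m z.2 * ‖h (z.1 - z.2)‖ₑ ^ p :=
    (hmm.comp measurable_snd).mul ((hh.comp (measurable_fst.sub measurable_snd)).enorm.pow_const p)
  rw [lintegral_lintegral_swap hjoint.aemeasurable]
  have h2 : ∀ t, ∫⁻ x, m t * ‖h (x - t)‖ₑ ^ p = m t * ∫⁻ x, ‖h x‖ₑ ^ p := by
    intro t
    rw [lintegral_const_mul' _ _ ENNReal.ofReal_ne_top,
      lintegral_sub_right_eq_self (fun x => ‖h x‖ₑ ^ p) t]
  simp only [h2]
  rw [lintegral_mul_const _ hmm, hm,
    ← ofReal_integral_eq_lintegral_ofReal (mol_integrable hδ)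
      (Eventually.of_forall (mol_nonneg hδ)), mol_integral, ENNReal.ofReal_one, one_mul]

theorem smth_congr_ae {h h' : Sp3 → ℝ} (he : h =ᵐ[volume] h') :
    smth δ hδ h = smth δ hδ h' := by
  funext x
  refine integral_congr_ae ?_
  have := (Measure.measurePreserving_sub_left volume x).quasiMeasurePreserving.ae_eq_comp he
  filter_upwards [this] with t ht
  simp only [comp_apply] at ht
  rw [ht]

theorem eLpNorm_smth_le {p : ℝ} (hp : 1 ≤ p) {h : Sp3 → ℝ} (hh : AEStronglyMeasurable h) :
    eLpNorm (smth δ hδ h) (ENNReal.ofReal p) ≤ eLpNorm h (ENNReal.ofReal p) := by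
  have hp0 : 0 < p := by linarith
  rw [smth_congr_ae hδ hh.ae_eq_mk, eLpNorm_congr_ae hh.ae_eq_mk,
    eLpNorm_eq_lintegral_rpow_enorm_toReal (by simp [hp0]) ENNReal.ofReal_ne_top,
    eLpNorm_eq_lintegral_rpow_enorm_toReal (by simp [hp0]) ENNReal.ofReal_ne_top,
    ENNReal.toReal_ofReal hp0.le]
  exact ENNReal.rpow_le_rpow (lintegral_smth_rpow_le hδ hp hh.stronglyMeasurable_mk.measurable)
    (by positivity)

theorem smth_integrand {h : Sp3 → ℝ} (hh : LocallyIntegrable h) (x : Sp3) :
    Integrable fun t => mol δ hδ t * h (x - t) := by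
  have := ((mol_compact hδ).convolutionExists_left (μ := volume) (ContinuousLinearMap.lsmul ℝ ℝ)
    (mol_contDiff hδ (N := 0)).continuous hh) x
  simpa [ConvolutionExistsAt] using this

theorem smth_sub {h g : Sp3 → ℝ} (hh : LocallyIntegrable h) (hg : LocallyIntegrable g) :
    smth δ hδ (fun x => h x - g x) = fun x => smth δ hδ h x - smth δ hδ g x := by
  funext x
  show ∫ t, mol δ hδ t * (h (x - t) - g (x - t)) = _
  simp only [mul_sub]
  exact integral_sub (smth_integrand hδ hh x) (smth_integrand hδ hg x)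

/-- Mollifications converge in `L^p`. -/
theorem tendsto_smth {p : ℝ} (hp : 1 ≤ p) {h : Sp3 → ℝ} (hh : MemLp h (ENNReal.ofReal p))
    {r : ℕ → ℝ} (hr : ∀ n, 0 < r n) (hr0 : Tendsto r atTop (𝓝 0)) :
    Tendsto (fun n => eLpNorm (fun x => smth (r n) (hr n) h x - h x) (ENNReal.ofReal p))
      atTop (𝓝 0) := by
  have hp0 : 0 < p := by linarith
  have hP : (1 : ℝ≥0∞) ≤ ENNReal.ofReal p := ENNReal.one_le_ofReal.2 hp
  rw [ENNReal.tendsto_nhds_zero]
  intro ε hε
  obtain ⟨g, hgc, hgε, hg, hgL⟩ := hh.exists_hasCompactSupport_eLpNorm_sub_le ENNReal.ofReal_ne_top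
    (ε := ε / 3) (by simp [hε.ne'])
  set S := Metric.cthickening 1 (tsupport g) with hS
  have hSc : IsCompact S := hgc.isCompact.cthickening
  have hfin : volume S ≠ ⊤ := hSc.measure_lt_top.ne
  have hgu := hgc.uniformContinuous_of_continuous hg
  set c := eLpNorm (S.indicator fun _ => (1 : ℝ)) (ENNReal.ofReal p) volume with hc
  have hcfin : c ≠ ⊤ :=
    (memLp_indicator_const (ENNReal.ofReal p) hSc.measurableSet (1 : ℝ) (Or.inr hfin)).eLpNorm_ne_top
  obtain ⟨η, hη0, hη⟩ : ∃ η : ℝ, 0 < η ∧ ENNReal.ofReal η * c ≤ ε / 3 := by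
    rcases eq_or_ne c 0 with hc0 | hc0
    · exact ⟨1, one_pos, by simp [hc0]⟩
    · rcases eq_or_ne ε ⊤ with he | he
      · exact ⟨1, one_pos, by simp [he, ENNReal.top_div_of_ne_top]⟩
      · refine ⟨(ε / 3 / c).toReal, ENNReal.toReal_pos ?_ ?_, ?_⟩
        · simp [hε.ne', hcfin]
        · exact ENNReal.div_ne_top (ENNReal.div_ne_top he (by simp)) hc0
        · rw [ENNReal.ofReal_toReal (ENNReal.div_ne_top (ENNReal.div_ne_top he (by simp)) hc0),
            ENNReal.div_mul_cancel hc0 hcfin]
  obtain ⟨ρ, hρ, hgρ⟩ := Metric.uniformContinuous_iff.1 hgu η hη0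
  filter_upwards [hr0.eventually (gt_mem_nhds (lt_min hρ one_pos))] with n hn
  have hnρ := hn.trans_le (min_le_left _ _)
  have hn1 := hn.trans_le (min_le_right _ _)
  have hloc : LocallyIntegrable h := hh.locallyIntegrable hP
  have hgl : LocallyIntegrable g := hg.locallyIntegrable
  have hpt : ∀ x, ‖smth (r n) (hr n) g x - g x‖ ≤ ‖S.indicator (fun _ => η) x‖ := by
    intro x
    have e : smth (r n) (hr n) g x - g x
        = ∫ t, mol (r n) (hr n) t * (g (x - t) - g x) := by
      simp only [mul_sub]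
      rw [integral_sub (smth_integrand _ hgl x) ((mol_integrable _).mul_const _),
        integral_mul_const, mol_integral, one_mul]
      rfl
    by_cases hx : x ∈ S
    · rw [Set.indicator_of_mem hx, e, Real.norm_of_nonneg hη0.le]
      refine (norm_integral_le_of_norm_le ((mol_integrable (hr n)).mul_const η)
        (Eventually.of_forall fun t => ?_)).trans (le_of_eq ?_)
      · rw [norm_mul, Real.norm_of_nonneg (mol_nonneg _ t)]
        by_cases ht : r n < ‖t‖
        · simp [mol_eq_zero _ ht]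
        · refine mul_le_mul_of_nonneg_left ?_ (mol_nonneg _ t)
          rw [← dist_eq_norm]
          refine (hgρ ?_).le
          rw [dist_eq_norm, sub_sub_cancel_left, norm_neg]
          exact (not_lt.1 ht).trans_lt hnρ
      · rw [integral_mul_const, mol_integral, one_mul]
    · have h1 : g x = 0 := image_eq_zero_of_notMem_tsupport fun h' =>
        hx (Metric.self_subset_cthickening _ h')
      have h2 : smth (r n) (hr n) g x = 0 := smth_eq_zero _ (K := tsupport g)
        (fun y hy => image_eq_zero_of_notMem_tsupport hy)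
        fun h' => hx (Metric.cthickening_mono hn1.le _ h')
      simp [h1, h2, hx]
  have hmid : eLpNorm (fun x => smth (r n) (hr n) g x - g x) (ENNReal.ofReal p) volume ≤ ε / 3 := by
    refine (eLpNorm_mono hpt).trans (le_trans (le_of_eq ?_) hη)
    rw [hc, show S.indicator (fun _ => η) = η • S.indicator (fun _ => (1 : ℝ)) from by
      funext y; by_cases hy : y ∈ S <;> simp [hy], eLpNorm_const_smul, Real.enorm_eq_ofReal hη0.le]
  have hcs : ∀ {f : Sp3 → ℝ}, LocallyIntegrable f → Continuous (smth (r n) (hr n) f) := fun hf =>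
    (smth_contDiff (hr n) hf (N := 0)).continuous
  have hA : AEStronglyMeasurable (fun x => h x - g x) volume :=
    hh.1.sub hg.aestronglyMeasurable
  calc eLpNorm (fun x => smth (r n) (hr n) h x - h x) (ENNReal.ofReal p) volume
      = eLpNorm ((smth (r n) (hr n) (fun x => h x - g x)
          + fun x => smth (r n) (hr n) g x - g x) + fun x => g x - h x) (ENNReal.ofReal p) := by
        rw [smth_sub (hr n) hloc hgl]
        congr 1
        funext x
        simp
    _ ≤ ε / 3 + ε / 3 + ε / 3 := by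
        refine (eLpNorm_add_le ?_ ?_ hP).trans (add_le_add
          ((eLpNorm_add_le ?_ ?_ hP).trans (add_le_add ?_ hmid)) ?_)
        · rw [smth_sub (hr n) hloc hgl]
          exact (((hcs hloc).sub (hcs hgl)).add ((hcs hgl).sub hg)).aestronglyMeasurable
        · exact hg.aestronglyMeasurable.sub hh.1
        · rw [smth_sub (hr n) hloc hgl]
          exact ((hcs hloc).sub (hcs hgl)).aestronglyMeasurable
        · exact ((hcs hgl).sub hg).aestronglyMeasurable
        · exact (eLpNorm_smth_le (hr n) hp hA).trans hgε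
        · refine le_of_eq_of_le ?_ hgε
          rw [← eLpNorm_neg]
          congr 1
          funext x
          simp
    _ = ε := ENNReal.add_thirds ε

/-- Mollifying a function with weak derivative `g` gives classical derivative `smth g`. -/
theorem fderiv_smth {q g : Sp3 → ℝ} (hq : LocallyIntegrable q) (i : Fin 3)
    (hw : ∀ ψ : Sp3 → ℝ, ContDiff ℝ ∞ ψ → HasCompactSupport ψ →
      ∫ x, q x * fderiv ℝ ψ x (ev3 i) = - ∫ x, g x * ψ x) (x : Sp3) :
    fderiv ℝ (smth δ hδ q) x (ev3 i) = smth δ hδ g x := by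
  have hconv : smth δ hδ q = (mol δ hδ ⋆[ContinuousLinearMap.lsmul ℝ ℝ, volume] q) := by
    funext y
    simp [smth, convolution_def]
  have hd := (mol_compact hδ).hasFDerivAt_convolution_left (μ := volume)
    (ContinuousLinearMap.lsmul ℝ ℝ) (mol_contDiff hδ (N := 1)) hq x
  have hex := ((mol_compact hδ).fderiv (𝕜 := ℝ)).convolutionExists_left (μ := volume)
    ((ContinuousLinearMap.lsmul ℝ ℝ).precompL Sp3)
    ((mol_contDiff hδ (N := 1)).continuous_fderiv one_ne_zero) hq
  have hint := hex x
  unfold ConvolutionExistsAt at hint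
  have he : fderiv ℝ (smth δ hδ q) x (ev3 i)
      = ∫ t, fderiv ℝ (mol δ hδ) t (ev3 i) * q (x - t) := by
    rw [hconv, hd.fderiv, convolution_def, ContinuousLinearMap.integral_apply]
    · simp
    · exact hint
  rw [he, ← integral_sub_left_eq_self _ volume x]
  have hψ : ContDiff ℝ ∞ fun y => mol δ hδ (x - y) :=
    (mol_contDiff hδ (N := ⊤)).comp (contDiff_const.sub contDiff_id)
  have hψc : HasCompactSupport fun y => mol δ hδ (x - y) :=
    (mol_compact hδ).comp_homeomorph (Homeomorph.subLeft x)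
  have hw' := hw _ hψ hψc
  have hder : ∀ y, fderiv ℝ (fun z => mol δ hδ (x - z)) y (ev3 i)
      = - fderiv ℝ (mol δ hδ) (x - y) (ev3 i) := by
    intro y
    have := ((mol_contDiff hδ (N := 1)).differentiable (by simp) (x - y)).hasFDerivAt.comp y
      ((hasFDerivAt_id y).const_sub x)
    show fderiv ℝ (mol δ hδ ∘ fun z => x - z) y (ev3 i) = _
    rw [HasFDerivAt.fderiv this]
    simp
  simp only [sub_sub_cancel, hder, mul_neg, integral_neg, neg_inj] at hw' ⊢
  rw [show (fun t => fderiv ℝ (mol δ hδ) (x - t) (ev3 i) * q t)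
    = fun t => q t * fderiv ℝ (mol δ hδ) (x - t) (ev3 i) from funext fun t => mul_comm _ _, hw',
    smth, ← integral_sub_left_eq_self _ volume x]
  simp only [sub_sub_cancel]
  exact integral_congr_ae (Eventually.of_forall fun t => mul_comm _ _)

end Vale.Agent.P073
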