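import Vale.Agent.P073.Defs
import Vale.Agent.P073.Mollifier

/-!
# P073: vertical shears equal to the identity near the boundary are approximable
-/

namespace Vale.Agent.P073

open MeasureTheory Filter Topology Function
open scoped ENNReal ContDiff

theorem sp3_coord_contDiff (k : Fin 3) {N : ℕ∞} : ContDiff ℝ N (fun x : Sp3 => x k) :=
  (EuclideanSpace.proj (𝕜 := ℝ) k).contDiff

theorem fderiv_coord (k i : Fin 3) (x : Sp3) :
    fderiv ℝ (fun y : Sp3 => y k) x (ev3 i) = if i = k then 1 else 0 := by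
  show fderiv ℝ (EuclideanSpace.proj (𝕜 := ℝ) k) x (ev3 i) = _
  rw [ContinuousLinearMap.fderiv]
  simp [ev3, eq_comm]

theorem ibp_global {f ψ : Sp3 → ℝ} (hf : ContDiff ℝ 1 f) (hψ : ContDiff ℝ 1 ψ)
    (hc : HasCompactSupport ψ) (v : Sp3) :
    ∫ x, f x * fderiv ℝ ψ x v = - ∫ x, fderiv ℝ f x v * ψ x := by
  have c1 : ∀ {g : Sp3 → ℝ}, ContDiff ℝ 1 g → Continuous fun x => fderiv ℝ g x v := fun hg =>
    (hg.continuous_fderiv one_ne_zero).clm_apply continuous_const
  refine integral_mul_fderiv_eq_neg_fderiv_mul_of_integrable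
    (((c1 hf).mul hψ.continuous).integrable_of_hasCompactSupport hc.mul_left)
    ((hf.continuous.mul (c1 hψ)).integrable_of_hasCompactSupport ?_)
    ((hf.continuous.mul hψ.continuous).integrable_of_hasCompactSupport hc.mul_left)
    (fun x _ => hf.differentiable one_ne_zero x) (fun x _ => hψ.differentiable one_ne_zero x)
  refine HasCompactSupport.intro hc fun x hx => ?_
  simp [fderiv_of_notMem_tsupport ℝ hx]

theorem memLp_of_continuous {Ω : Set Sp3} (hΩ : Bornology.IsBounded Ω) {P : ℝ≥0∞} {f : Sp3 → ℝ}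
    (hf : Continuous f) : MemLp f P (volume.restrict Ω) := by
  have hc : IsCompact (closure Ω) := hΩ.isCompact_closure
  obtain ⟨C, hC⟩ := hc.exists_bound_of_continuousOn hf.continuousOn
  haveI : IsFiniteMeasure (volume.restrict (closure Ω)) :=
    ⟨by simpa using hc.measure_lt_top⟩
  have : MemLp f P (volume.restrict (closure Ω)) :=
    MemLp.of_bound hf.aestronglyMeasurable C
      ((ae_restrict_iff' isClosed_closure.measurableSet).2 (Eventually.of_forall hC))
  exact this.mono_measure (Measure.restrict_mono_set _ subset_closure)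

theorem setIntegral_test {Ω : Set Sp3} {f ψ : Sp3 → ℝ} (hψ : tsupport ψ ⊆ Ω) :
    ∫ x in Ω, f x * ψ x = ∫ x, f x * ψ x :=
  setIntegral_eq_integral_of_forall_compl_eq_zero fun x hx => by
    rw [image_eq_zero_of_notMem_tsupport fun h => hx (hψ h), mul_zero]

theorem setIntegral_test_deriv {Ω : Set Sp3} {f ψ : Sp3 → ℝ} (hψ : tsupport ψ ⊆ Ω) (v : Sp3) :
    ∫ x in Ω, f x * fderiv ℝ ψ x v = ∫ x, f x * fderiv ℝ ψ x v :=
  setIntegral_eq_integral_of_forall_compl_eq_zero fun x hx => by
    rw [fderiv_of_notMem_tsupport ℝ fun h => hx (hψ h)]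
    simp

/-- The derivative matrix of `x + h(x) e₃`. -/
noncomputable def shearGrad (g : Fin 3 → Sp3 → ℝ) (x : Sp3) (k i : Fin 3) : ℝ :=
  (if i = k then 1 else 0) + if k = 2 then g i x else 0

/-- The map `x + h(x) e₃`. -/
noncomputable def shear (h : Sp3 → ℝ) (x : Sp3) : Sp3 := x + h x • ev3 2

theorem shear_apply (h : Sp3 → ℝ) (x : Sp3) (k : Fin 3) :
    shear h x k = x k + if k = 2 then h x else 0 := by
  simp [shear, ev3, Pi.single_apply]

theorem isWeakGrad_shear {Ω : Set Sp3} (hΩ : Bornology.IsBounded Ω) {p : ℝ} {h : Sp3 → ℝ}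
    {g : Fin 3 → Sp3 → ℝ} (hh : Continuous h)
    (hg : ∀ i, MemLp (g i) (ENNReal.ofReal p) (volume.restrict Ω))
    (hgl : ∀ i, LocallyIntegrable (g i))
    (hw : ∀ i (ψ : Sp3 → ℝ), ContDiff ℝ ∞ ψ → HasCompactSupport ψ → tsupport ψ ⊆ Ω →
      ∫ x, h x * fderiv ℝ ψ x (ev3 i) = - ∫ x, g i x * ψ x) :
    IsWeakGrad Ω p (shear h) (shearGrad g) := by
  intro k
  refine ⟨?_, fun i => ⟨?_, fun ψ hψ hψc hψΩ => ?_⟩⟩
  · simp only [shear_apply]
    refine memLp_of_continuous hΩ ((sp3_coord_contDiff (N := 0) k).continuous.add ?_)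
    split_ifs <;> fun_prop
  · simp only [shearGrad]
    refine (memLp_of_continuous hΩ continuous_const).add ?_
    split_ifs
    · exact hg i
    · exact memLp_of_continuous hΩ continuous_const
  · rw [setIntegral_test_deriv hψΩ (f := fun x => shear h x k),
      setIntegral_test hψΩ (f := fun x => shearGrad g x k i)]
    have hψ1 : ContDiff ℝ 1 ψ := hψ.of_le (by simp)
    have hc := ibp_global (sp3_coord_contDiff (N := 1) k) hψ1 hψc (ev3 i)
    simp only [fderiv_coord] at hc
    have hdc : HasCompactSupport fun x => fderiv ℝ ψ x (ev3 i) :=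
      (hψc.fderiv (𝕜 := ℝ)).comp_left (g := fun L : Sp3 →L[ℝ] ℝ => L (ev3 i)) (by simp)
    have hdcont : Continuous fun x => fderiv ℝ ψ x (ev3 i) :=
      (hψ1.continuous_fderiv one_ne_zero).clm_apply continuous_const
    show ∫ x, shear h x k * fderiv ℝ ψ x (ev3 i) = _
    simp only [shear_apply, shearGrad, add_mul]
    by_cases hk : k = 2
    · simp only [hk, if_true] at hc ⊢
      have i1 : Integrable fun y : Sp3 => y 2 * fderiv ℝ ψ y (ev3 i) :=
        ((sp3_coord_contDiff (N := 0) 2).continuous.mul hdcont).integrable_of_hasCompactSupport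
          hdc.mul_left
      have i2 : Integrable fun y : Sp3 => h y * fderiv ℝ ψ y (ev3 i) :=
        (hh.mul hdcont).integrable_of_hasCompactSupport hdc.mul_left
      have i3 : Integrable fun y : Sp3 => (if i = 2 then (1 : ℝ) else 0) * ψ y :=
        (continuous_const.mul hψ.continuous).integrable_of_hasCompactSupport hψc.mul_left
      have i4 : Integrable fun y : Sp3 => g i y * ψ y :=
        ((hgl i).integrable_smul_left_of_hasCompactSupport hψ.continuous hψc).congr
          (Eventually.of_forall fun y => by simp [mul_comm])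
      rw [integral_add i1 i2, integral_add i3 i4, hc, hw i ψ hψ hψc hψΩ]
      ring
    · simp only [hk, if_false, zero_mul, add_zero]
      exact hc

/-- A shear by a smooth function which keeps vertical lines increasing is a diffeomorphism. -/
theorem isDiffeo_shear {Ω : Set Sp3} {h : Sp3 → ℝ} (hh : ContDiff ℝ ∞ h) {K : Set Sp3}
    (hK : IsCompact K) (hKΩ : K ⊆ Ω) (h0 : ∀ x ∉ K, h x = 0)
    (hpos : ∀ x, -1 < fderiv ℝ h x (ev3 2)) : IsDiffeo Ω Ω (shear h) := by
  have h2 : ∀ x : Sp3, ∀ t : ℝ, (x + t • ev3 2) 2 = x 2 + t := fun x t => by simp [ev3]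
  have hd : Differentiable ℝ h := hh.differentiable (by simp)
  have hm : ∀ x : Sp3, StrictMono fun t : ℝ => t + h (x + t • ev3 2) := by
    intro x
    refine strictMono_of_hasDerivAt_pos (f' := fun t => 1 + fderiv ℝ h (x + t • ev3 2) (ev3 2))
      (fun t => ?_) (fun t => by linarith [hpos (x + t • ev3 2)])
    have h1 : HasDerivAt (fun s : ℝ => x + s • ev3 2) (ev3 2) t := by
      simpa using ((hasDerivAt_id t).smul_const (ev3 2)).const_add x
    exact (hasDerivAt_id t).add ((hd _).hasFDerivAt.comp_hasDerivAt t h1)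
  obtain ⟨C, hC⟩ : ∃ C, ∀ x, |h x| ≤ C :=
    (HasCompactSupport.intro hK h0).exists_bound_of_continuous hh.continuous
  have hinj : Function.Injective (shear h) := by
    intro a b hab
    have hsh : a + (h a - h b) • ev3 2 = b := by
      simp only [shear] at hab
      rw [sub_smul, ← add_sub_assoc, hab]
      abel
    have := (hm a).injective (a₁ := 0) (a₂ := h a - h b) (by
      simp only [zero_smul, add_zero, zero_add, hsh]
      ring)
    rw [← hsh, ← this, zero_smul, add_zero]
  have hsurj : Function.Surjective (shear h) := by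
    intro y
    have hc : Continuous fun t : ℝ => t + h (y + t • ev3 2) :=
      continuous_id.add (hh.continuous.comp (by fun_prop))
    have ht : (0 : ℝ) ∈ Set.range fun t : ℝ => t + h (y + t • ev3 2) := by
      have a1 := abs_le.1 (hC (y + (-C) • ev3 2))
      have a2 := abs_le.1 (hC (y + C • ev3 2))
      refine mem_range_of_exists_le_of_exists_ge hc ⟨-C, ?_⟩ ⟨C, ?_⟩
      · show -C + h (y + (-C) • ev3 2) ≤ 0
        linarith
      · show 0 ≤ C + h (y + C • ev3 2)
        linarith
    obtain ⟨t, ht⟩ := ht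
    refine ⟨y + t • ev3 2, ?_⟩
    simp only at ht
    rw [shear, add_assoc, ← add_smul, ht, zero_smul, add_zero]
  have hsm : ContDiff ℝ ∞ (shear h) := contDiff_id.add (hh.smul contDiff_const)
  set L : Sp3 → Sp3 →L[ℝ] Sp3 := fun x =>
    ContinuousLinearMap.id ℝ Sp3 + (fderiv ℝ h x).smulRight (ev3 2) with hL
  have hder : ∀ x, HasFDerivAt (shear h) (L x) x := fun x =>
    (hasFDerivAt_id x).add ((hd x).hasFDerivAt.smul_const (ev3 2))
  have hker : ∀ x, Function.Injective (L x) := by
    intro x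
    refine (injective_iff_map_eq_zero (L x)).2 fun v hv => ?_
    simp [hL] at hv
    have h' := congrArg (fderiv ℝ h x) hv
    simp at h'
    have hz : fderiv ℝ h x v = 0 := by
      have : fderiv ℝ h x v * (1 + fderiv ℝ h x (ev3 2)) = 0 := by linarith
      exact (mul_eq_zero.1 this).resolve_right (by linarith [hpos x])
    simpa [hz] using hv
  let Le : Sp3 → Sp3 ≃L[ℝ] Sp3 := fun x =>
    ((L x).toLinearMap.linearEquivOfInjective (hker x) rfl).toContinuousLinearEquiv
  have hder' : ∀ x, HasFDerivAt (shear h) (Le x : Sp3 →L[ℝ] Sp3) x := fun x => by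
    convert hder x using 1
    ext v
    simp [Le]
  have hopen : IsOpenMap (shear h) := by
    refine IsOpenMap.of_nhds_le fun x => ?_
    have hs := hsm.contDiffAt.hasStrictFDerivAt' (hder' x) (by simp)
    rw [hs.map_nhds_eq_of_equiv]
  let e : Sp3 ≃ₜ Sp3 :=
    (Equiv.ofBijective (shear h) ⟨hinj, hsurj⟩).toHomeomorphOfContinuousOpen hsm.continuous hopen
  have hsymm : ContDiff ℝ ∞ e.symm := Homeomorph.contDiff_symm e hder' hsm
  have hmem : ∀ x, shear h x ∈ Ω ↔ x ∈ Ω := by
    intro x
    by_cases hx : x ∈ K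
    · refine ⟨fun _ => hKΩ hx, fun _ => ?_⟩
      by_contra hn
      have hz : h (shear h x) = 0 := h0 (shear h x) fun hm' => hn (hKΩ hm')
      have hxn : shear h (shear h x) = shear h x := by
        rw [show shear h (shear h x) = shear h x + h (shear h x) • ev3 2 from rfl, hz, zero_smul,
          add_zero]
      exact hn ((hinj hxn).symm ▸ hKΩ hx)
    · simp [shear, h0 x hx]
  refine ⟨⟨fun x hx => (hmem x).2 hx, hinj.injOn, fun y hy => ?_⟩, hsm.contDiffOn,
    e.symm, hsymm.contDiffOn, fun x _ => e.symm_apply_apply x, fun y _ => e.apply_symm_apply y⟩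
  obtain ⟨x, rfl⟩ := hsurj y
  exact ⟨x, (hmem x).1 hy, rfl⟩

/-- A function whose translates give increasing vertical lines keeps this after mollifying. -/
theorem smth_deriv_ge {q : Sp3 → ℝ} (hq : Continuous q)
    (hmono : ∀ x : Sp3, Monotone fun t : ℝ => t + q (x + t • ev3 2)) {δ : ℝ} (hδ : 0 < δ)
    (x : Sp3) : -1 ≤ fderiv ℝ (smth δ hδ q) x (ev3 2) := by
  have hl : LocallyIntegrable q := hq.locallyIntegrable
  have hmon : Monotone fun t : ℝ => t + smth δ hδ q (x + t • ev3 2) := by
    intro s t hst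
    simp only
    have e : ∀ r : ℝ, r + smth δ hδ q (x + r • ev3 2)
        = ∫ z, mol δ hδ z * (r + q (x + r • ev3 2 - z)) := by
      intro r
      simp only [mul_add]
      rw [integral_add ((mol_integrable hδ).mul_const r) (smth_integrand hδ hl _),
        integral_mul_const, mol_integral, one_mul]
      rfl
    rw [e, e]
    refine integral_mono ?_ ?_ fun z => mul_le_mul_of_nonneg_left ?_ (mol_nonneg hδ z)
    · simp only [mul_add]
      exact ((mol_integrable hδ).mul_const s).add (smth_integrand hδ hl _)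
    · simp only [mul_add]
      exact ((mol_integrable hδ).mul_const t).add (smth_integrand hδ hl _)
    · have := hmono (x - z) hst
      simpa [sub_add_eq_add_sub] using this
  have h1 : HasDerivAt (fun t : ℝ => x + t • ev3 2) (ev3 2) 0 := by
    simpa using ((hasDerivAt_id (0 : ℝ)).smul_const (ev3 2)).const_add x
  have h2 := (((smth_contDiff hδ hl (N := 1)).differentiable (by simp)
    (x + (0 : ℝ) • ev3 2)).hasFDerivAt.comp_hasDerivAt (0 : ℝ) h1)
  have h3 := (hasDerivAt_id (0 : ℝ)).add h2
  have h4 : 0 ≤ deriv (fun t : ℝ => t + smth δ hδ q (x + t • ev3 2)) 0 := hmon.deriv_nonneg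
  rw [show (fun t : ℝ => t + smth δ hδ q (x + t • ev3 2))
    = id + smth δ hδ q ∘ fun t : ℝ => x + t • ev3 2 from rfl, h3.deriv, zero_smul, add_zero] at h4
  linarith

theorem lintegral_ofReal_rpow {Ω : Set Sp3} {p : ℝ} (hp : 1 ≤ p) {f : Sp3 → ℝ} :
    ∫⁻ x in Ω, ENNReal.ofReal (|f x| ^ p) ≤ eLpNorm f (ENNReal.ofReal p) volume ^ p := by
  have hp0 : 0 < p := by linarith
  rw [eLpNorm_eq_lintegral_rpow_enorm_toReal (by simp [hp0]) ENNReal.ofReal_ne_top,
    ENNReal.toReal_ofReal hp0.le, one_div, ENNReal.rpow_inv_rpow hp0.ne']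
  refine (setLIntegral_le_lintegral _ _).trans (le_of_eq (lintegral_congr fun x => ?_))
  rw [Real.enorm_eq_ofReal_abs, ENNReal.ofReal_rpow_of_nonneg (abs_nonneg _) hp0.le]

end Vale.Agent.P073
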